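import Claimed.Agent.R322.Pack018

/-!
# R322 / Tube / Cell / BaseCov   (helper121)   change of variables `y = bpt p` in the base
-/

set_option autoImplicit false

open scoped ENNReal NNReal InnerProductSpace
open MeasureTheory ContinuousLinearMap Set Metric

namespace Claimed.Agent.R322.Tube

variable {m n : ℕ}

theorem cl_map_affine {m : ℕ} (A : E m →L[ℝ] E m) (x₀ : E m) (l : ℝ) (hl : 0 < l)
    (hdet : LinearMap.det (A : E m →ₗ[ℝ] E m) ≠ 0) (μ : Measure (E m)) [μ.IsAddHaarMeasure] :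
    μ.map (fun y => l⁻¹ • A (y - x₀))
      = ENNReal.ofReal (l ^ m / |LinearMap.det (A : E m →ₗ[ℝ] E m)|) • μ := by
  set L : E m →ₗ[ℝ] E m := l⁻¹ • (A : E m →ₗ[ℝ] E m) with hL
  have hLdet : LinearMap.det L = (l ^ m)⁻¹ * LinearMap.det (A : E m →ₗ[ℝ] E m) := by
    rw [hL, LinearMap.det_smul, finrank_euclideanSpace_fin, inv_pow]
  have hLdet0 : LinearMap.det L ≠ 0 := by
    rw [hLdet]
    exact mul_ne_zero (inv_ne_zero (pow_ne_zero _ hl.ne')) hdet
  have e1 : (fun y => l⁻¹ • A (y - x₀)) = L ∘ (fun y => y - x₀) := by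
    funext y
    simp [hL]
  have hLm : Measurable L := (LinearMap.continuous_of_finiteDimensional L).measurable
  rw [e1, ← Measure.map_map hLm (measurable_sub_const x₀),
    (measurePreserving_sub_right μ x₀).map_eq, Measure.map_linearMap_addHaar_eq_smul_addHaar μ hLdet0,
    hLdet]
  congr 2
  rw [mul_inv, inv_inv, abs_mul, abs_of_pos (pow_pos hl m), abs_inv]
  rfl

theorem cl_det_A0_ne (u : E m → E n) (x₀ : E m) :
    LinearMap.det ((A0 u x₀ : E m →L[ℝ] E m) : E m →ₗ[ℝ] E m) ≠ 0 := by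
  obtain ⟨-, h2, -⟩ := A0_facts m n u x₀ _ le_rfl
  intro h0
  have h3 := congrArg (fun f : E m →L[ℝ] E m => LinearMap.det (f : E m →ₗ[ℝ] E m)) h2
  simp at h3
  rw [h0, zero_mul] at h3
  exact zero_ne_one h3

/-- the base chart as a measurable equivalence -/
noncomputable def clEqv (u : E m → E n) (x : E m) {l : ℝ} (hl : 0 < l) : E m ≃ᵐ E m where
  toFun := bco u x l
  invFun := bpt u x l
  left_inv := cl_bpt_bco u x hl
  right_inv := cl_bco_bpt u x hl
  measurable_toFun := (cl_continuous_bco u x l).measurable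
  measurable_invFun := (cl_continuous_bpt u x l).measurable

/-- `μH[m]` in the base chart -/
theorem cl_map_hausdorff (u : E m → E n) (x₀ : E m) {l : ℝ} (hl : 0 < l) :
    (μH[(m : ℝ)] : Measure (E m)).map (bco u x₀ l)
      = ENNReal.ofReal (haarC m * l ^ m / vdens (fderiv ℝ u x₀)) • volume := by
  obtain ⟨-, -, -, -, -, h6, -⟩ := A0_facts m n u x₀ _ le_rfl
  have hH := cl_haarC_pos m
  have hs := cl_haarC_spec m
  have h1 := cl_map_affine (A0 u x₀) x₀ l hl (cl_det_A0_ne u x₀) (volume : Measure (E m))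
  rw [h6] at h1
  conv_lhs => rw [hs]
  rw [Measure.map_smul]
  change ENNReal.ofReal (haarC m) • (volume : Measure (E m)).map (fun y => l⁻¹ • A0 u x₀ (y - x₀)) = _
  rw [h1, smul_smul, ← ENNReal.ofReal_mul hH.le, mul_div_assoc]

theorem cl_cov_pos (u : E m → E n) (x₀ : E m) {l : ℝ} (hl : 0 < l) :
    0 < haarC m * l ^ m / vdens (fderiv ℝ u x₀) :=
  div_pos (cl_scale_pos m hl) (vdens_pos _)

/-- change of variables, no measurability needed -/
theorem cl_lintegral_hausdorff (u : E m → E n) (x₀ : E m) {l : ℝ} (hl : 0 < l) (F : E m → ℝ≥0∞) :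
    ∫⁻ y, F y ∂(μH[(m : ℝ)] : Measure (E m))
      = ENNReal.ofReal (haarC m * l ^ m / vdens (fderiv ℝ u x₀)) *
        ∫⁻ p, F (bpt u x₀ l p) := by
  have h1 : ∫⁻ p, F (bpt u x₀ l p) ∂((μH[(m : ℝ)] : Measure (E m)).map (clEqv u x₀ hl))
      = ∫⁻ y, F (bpt u x₀ l (clEqv u x₀ hl y)) ∂(μH[(m : ℝ)] : Measure (E m)) :=
    lintegral_map_equiv _ _
  have h2 : ∀ y, F (bpt u x₀ l (clEqv u x₀ hl y)) = F y := fun y =>
    congrArg F (cl_bpt_bco u x₀ hl y)
  simp only [h2] at h1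
  rw [← h1]
  change ∫⁻ p, F (bpt u x₀ l p) ∂((μH[(m : ℝ)] : Measure (E m)).map (bco u x₀ l)) = _
  rw [cl_map_hausdorff u x₀ hl, lintegral_smul_measure, smul_eq_mul]

/-- null sets -/
theorem cl_ae_bpt (u : E m → E n) (x₀ : E m) {l : ℝ} (hl : 0 < l) {Q : E m → Prop}
    (h : ∀ᵐ y ∂(μH[(m : ℝ)] : Measure (E m)), Q y) : ∀ᵐ p : E m, Q (bpt u x₀ l p) := by
  have h1 : ((μH[(m : ℝ)] : Measure (E m)).map (clEqv u x₀ hl)) {p | ¬ Q (bpt u x₀ l p)} = 0 := by
    rw [MeasurableEquiv.map_apply]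
    have : (clEqv u x₀ hl) ⁻¹' {p | ¬ Q (bpt u x₀ l p)} = {y | ¬ Q y} := by
      ext y
      change ¬ Q (bpt u x₀ l (bco u x₀ l y)) ↔ ¬ Q y
      rw [cl_bpt_bco u x₀ hl]
    rw [this]
    exact h
  change ((μH[(m : ℝ)] : Measure (E m)).map (bco u x₀ l)) {p | ¬ Q (bpt u x₀ l p)} = 0 at h1
  rw [cl_map_hausdorff u x₀ hl, Measure.smul_apply, smul_eq_mul, mul_eq_zero] at h1
  rcases h1 with h1 | h1
  · exact absurd h1 (ENNReal.ofReal_pos.2 (cl_cov_pos u x₀ hl)).ne'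
  · exact h1

theorem cl_aemeasurable_bpt (u : E m → E n) (x₀ : E m) {l : ℝ} (hl : 0 < l) {F : E m → ℝ≥0∞}
    (h : AEMeasurable F (μH[(m : ℝ)] : Measure (E m))) :
    AEMeasurable (fun p => F (bpt u x₀ l p)) (volume : Measure (E m)) := by
  have h1 : AEMeasurable (fun p => F (bpt u x₀ l p))
      ((μH[(m : ℝ)] : Measure (E m)).map (clEqv u x₀ hl)) := by
    rw [(clEqv u x₀ hl).measurableEmbedding.aemeasurable_map_iff]
    refine h.congr (Filter.Eventually.of_forall fun y => ?_)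
    exact (congrArg F (cl_bpt_bco u x₀ hl y)).symm
  change AEMeasurable (fun p => F (bpt u x₀ l p))
      ((μH[(m : ℝ)] : Measure (E m)).map (bco u x₀ l)) at h1
  rw [cl_map_hausdorff u x₀ hl] at h1
  exact h1.mono_ac (Measure.absolutelyContinuous_smul
    (ENNReal.ofReal_pos.2 (cl_cov_pos u x₀ hl)).ne')

end Claimed.Agent.R322.Tube
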