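import Claimed.Agent.R322.Pack018
import Claimed.Agent.R322.Pack017

/-!
# R322 / Tube / Cell / Stat   (helper121)   leaves V8, V9 (`v_horiz`, `v_normal`)

`stat_transfer`: first variation in the cylinder (`cyla_stat`) transported to the chart measure.
`a_logderiv`: logarithmic derivative of the chart density.
-/

set_option autoImplicit false

open scoped ENNReal NNReal InnerProductSpace Topology
open MeasureTheory ContinuousLinearMap Set Metric

namespace Claimed.Agent.R322.Tube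

variable {m n : ℕ}

/-- two integrals agree as soon as the difference is integrable with integral zero -/
theorem cl_integral_eq_of_sub {α : Type*} [MeasurableSpace α] {μ : Measure α} {L R : α → ℝ}
    (hI : Integrable (fun q => L q - R q) μ) (h0 : ∫ q, (L q - R q) ∂μ = 0) :
    ∫ q, L q ∂μ = ∫ q, R q ∂μ := by
  by_cases hR : Integrable R μ
  · have hL : Integrable L μ := by
      have := hI.add hR
      refine this.congr (Filter.Eventually.of_forall fun q => ?_)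
      simp
    rw [integral_sub hL hR] at h0
    linarith
  · have hL : ¬ Integrable L μ := by
      intro hL
      apply hR
      have := hL.sub hI
      refine this.congr (Filter.Eventually.of_forall fun q => ?_)
      simp
    rw [integral_undef hL, integral_undef hR]

theorem cl_meas_apply {α : Type*} [MeasurableSpace α] {a : ℕ} {A : α → E a →L[ℝ] ℝ}
    {v : α → E a} (hA : Measurable A) (hv : Measurable v) : Measurable fun x => A x (v x) := by
  have h1 : Continuous fun p : (E a →L[ℝ] ℝ) × E a => p.1 p.2 :=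
    isBoundedBilinearMap_apply.continuous
  exact h1.measurable2 hA hv

namespace CellCtx

variable {N : NCyl m n} {x₀ : E m} {l ρ h₀ : ℝ}

theorem stat_transfer (H : CellCtx N x₀ l ρ h₀) (Cg : ℝ) {Y : E (m + n) → E (m + n)}
    {K : Set (E m)} (hK : IsCompact K) (hKρ : K ⊆ ball (0 : E m) ρ)
    (hY : ContDiffOn ℝ 1 Y (Cyl N.u N.Ω N.h))
    (hY0 : ∀ X' ∈ Cyl N.u N.Ω N.h, (chart N.u x₀ l X').1 ∉ K → Y X' = 0)
    {D : E m × E n → ℝ} (hD : Measurable D)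
    (hDY : ∀ X' ∈ N.cellO x₀ l ρ, N.good x₀ l ρ (chart N.u x₀ l X') →
      D (chart N.u x₀ l X') = tdiv (N.W.P X') (fderiv ℝ Y X')) :
    Integrable D (N.sysOf x₀ l ρ Cg).μ ∧ ∫ q, D q ∂(N.sysOf x₀ l ρ Cg).μ = 0 := by
  have hh : N.h ≤ 2 / 9 := H.h_le.trans H.h₀_le
  have hK' : IsCompact (bpt N.u x₀ l '' K) := hK.image (cl_continuous_bpt _ _ _)
  have hK'c : bpt N.u x₀ l '' K ⊆ N.cellBase x₀ l ρ := by
    rintro _ ⟨p, hp, rfl⟩
    exact H.bpt_mem_cellBase (hKρ hp)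
  have hK'Ω : bpt N.u x₀ l '' K ⊆ N.Ω := hK'c.trans H.cellBase_sub
  have hY0' : ∀ X ∈ Cyl N.u N.Ω N.h, npr N.u X ∉ bpt N.u x₀ l '' K → Y X = 0 := by
    intro X hX hn
    apply hY0 X hX
    intro hc
    exact hn ⟨_, hc, H.bpt_bco _⟩
  obtain ⟨I, I0⟩ := cyla_stat N H.geo hh Y _ hY hK' hK'Ω hY0'
  -- the integrand vanishes off the cell
  have hzero : ∀ X ∈ Cyl N.u N.Ω N.h \ N.cellO x₀ l ρ, tdiv (N.W.P X) (fderiv ℝ Y X) = 0 := by
    rintro X ⟨hXC, hXn⟩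
    have hXK : npr N.u X ∉ bpt N.u x₀ l '' K := fun h => hXn ⟨hXC, hK'c h⟩
    have hopen : IsOpen (Cyl N.u N.Ω N.h ∩ npr N.u ⁻¹' (bpt N.u x₀ l '' K)ᶜ) :=
      (cyla_continuousOn_npr H.geo N.Ω hh).isOpen_inter_preimage H.isOpen_cyl
        hK'.isClosed.isOpen_compl
    have : Y =ᶠ[𝓝 X] fun _ => 0 := by
      filter_upwards [hopen.mem_nhds ⟨hXC, hXK⟩] with X' hX'
      exact hY0' X' hX'.1 hX'.2
    rw [this.fderiv_eq]
    simp [tdiv]
  have hsub : N.cellO x₀ l ρ ⊆ Cyl N.u N.Ω N.h := inter_subset_left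
  have I' : Integrable (fun X => tdiv (N.W.P X) (fderiv ℝ Y X))
      (N.W.μ.restrict (N.cellO x₀ l ρ)) := I.mono_measure (Measure.restrict_mono hsub le_rfl)
  have I0' : ∫ X in N.cellO x₀ l ρ, tdiv (N.W.P X) (fderiv ℝ Y X) ∂N.W.μ = 0 := by
    rw [← I0]
    unfold NCyl.μ
    exact (setIntegral_eq_of_subset_of_forall_sdiff_eq_zero H.isOpen_cyl.measurableSet hsub
      hzero).symm
  have hae : (fun X => D (chart N.u x₀ l X)) =ᵐ[N.W.μ.restrict (N.cellO x₀ l ρ)]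
      fun X => tdiv (N.W.P X) (fderiv ℝ Y X) := by
    filter_upwards [H.ae_good] with X hX
    exact hDY X hX.2.2.1 hX.2.2.2.1
  constructor
  · rw [H.sys_μ]
    apply Integrable.smul_measure _ (cl_scale_inv_ne_top m H.l_pos)
    rw [integrable_map_measure hD.aestronglyMeasurable H.aemeasurable_chart]
    exact I'.congr hae.symm
  · rw [H.integral_sys Cg hD, integral_congr_ae hae, I0', mul_zero]

/-! ### the density -/

theorem ag_eq_of_mem (H : CellCtx N x₀ l ρ h₀) {p : E m} (hp : p ∈ ball (0 : E m) ρ) :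
    N.ag x₀ l ρ p = vdens (fderiv ℝ N.u (bpt N.u x₀ l p)) / vdens (fderiv ℝ N.u x₀) := by
  have hρ : 0 < ρ := lt_of_lt_of_le one_pos H.one_le_ρ
  unfold NCyl.ag
  rw [(v4_cellChi_spec m hρ).2.2.1 p hp]
  ring

theorem hasFDerivAt_bpt (u : E m → E n) (x₀ : E m) (l : ℝ) (p : E m) :
    HasFDerivAt (bpt u x₀ l) (l • (A0 u x₀).inverse) p := by
  unfold bpt
  exact ((A0 u x₀).inverse.hasFDerivAt.const_smul l).const_add x₀

theorem a_logderiv (H : CellCtx N x₀ l ρ h₀) {p : E m} (hp : p ∈ ball (0 : E m) ρ) (ξ : E m) :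
    (N.ag x₀ l ρ p)⁻¹ * fderiv ℝ (N.ag x₀ l ρ) p ξ
      = ∑ a : Fin m, divS N.u (N.cfield x₀ l a) (bpt N.u x₀ l p) * ξ a := by
  have hu2 : ContDiff ℝ 2 N.u := H.geo.smooth.of_le (by norm_num)
  have hv := vdens_pos (fderiv ℝ N.u (bpt N.u x₀ l p))
  have hv0 := vdens_pos (fderiv ℝ N.u x₀)
  have hev : N.ag x₀ l ρ =ᶠ[𝓝 p]
      fun p => vdens (fderiv ℝ N.u (bpt N.u x₀ l p)) / vdens (fderiv ℝ N.u x₀) := by
    filter_upwards [isOpen_ball.mem_nhds hp] with p' hp'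
    exact H.ag_eq_of_mem hp'
  have hd : HasFDerivAt
      (fun p => vdens (fderiv ℝ N.u (bpt N.u x₀ l p)) / vdens (fderiv ℝ N.u x₀))
      ((vdens (fderiv ℝ N.u x₀))⁻¹ • ((vdens (fderiv ℝ N.u (bpt N.u x₀ l p)) •
        trW N.u (bpt N.u x₀ l p)) ∘L (l • (A0 N.u x₀).inverse))) p := by
    have h1 := (hasFDerivAt_vdens hu2 (bpt N.u x₀ l p)).comp p (hasFDerivAt_bpt N.u x₀ l p)
    have h2 := h1.const_mul (vdens (fderiv ℝ N.u x₀))⁻¹
    refine h2.congr_of_eventuallyEq (Filter.Eventually.of_forall fun p' => ?_)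
    simp only [Function.comp_apply]
    rw [div_eq_inv_mul]
  rw [hev.fderiv_eq, hd.fderiv, H.ag_eq_of_mem hp]
  have e1 : ∀ a : Fin m, divS N.u (N.cfield x₀ l a) (bpt N.u x₀ l p)
      = trW N.u (bpt N.u x₀ l p) (l • (A0 N.u x₀).inverse (EuclideanSpace.single a (1 : ℝ))) := by
    intro a
    unfold divS
    rw [(hasFDerivAt_log_vdens hu2 (bpt N.u x₀ l p)).fderiv]
    have : fderiv ℝ (N.cfield x₀ l a) (bpt N.u x₀ l p) = 0 := by
      unfold NCyl.cfield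
      exact fderiv_const_apply _
    rw [this]
    simp [trc, NCyl.cfield]
  have e2 : ξ = ∑ a : Fin m, ξ a • EuclideanSpace.single a (1 : ℝ) :=
    (Sx.sum_coord_smul_eb ξ).symm
  have e3 : trW N.u (bpt N.u x₀ l p) (l • (A0 N.u x₀).inverse ξ)
      = ∑ a : Fin m, divS N.u (N.cfield x₀ l a) (bpt N.u x₀ l p) * ξ a := by
    conv_lhs => rw [e2]
    rw [map_sum, Finset.smul_sum, map_sum]
    refine Finset.sum_congr rfl fun a _ => ?_
    rw [e1]
    simp only [map_smul, smul_eq_mul]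
    ring
  rw [← e3]
  simp only [smul_apply, ContinuousLinearMap.comp_apply, smul_eq_mul]
  field_simp

theorem meas_ag (H : CellCtx N x₀ l ρ h₀) : Measurable (N.ag x₀ l ρ) := by
  have hρ : 0 < ρ := lt_of_lt_of_le one_pos H.one_le_ρ
  unfold NCyl.ag
  refine measurable_const.add (Measurable.mul (v4_cellChi_spec m hρ).1.continuous.measurable ?_)
  exact (((cyla_measurable_vdens N.u).comp (cl_continuous_bpt _ _ _).measurable).div_const _).sub
    measurable_const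

theorem meas_D1 {G : Type*} [NormedAddCommGroup G] [NormedSpace ℝ G] [MeasurableSpace G]
    [BorelSpace G] {X : E m × E n → G} (hX : ContDiff ℝ 1 X) :
    Continuous (Sx.D1 X) :=
  (hX.continuous_fderiv one_ne_zero).clm_comp continuous_const

theorem meas_D2 {G : Type*} [NormedAddCommGroup G] [NormedSpace ℝ G] [MeasurableSpace G]
    [BorelSpace G] {X : E m × E n → G} (hX : ContDiff ℝ 1 X) :
    Continuous (Sx.D2 X) :=
  (hX.continuous_fderiv one_ne_zero).clm_comp continuous_const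

/-- **V8** given the pointwise identity -/
theorem horiz (H : CellCtx N x₀ l ρ h₀) {h₁ : ℝ} (hh₁ : N.h ≤ h₁)
    (PH : ∀ X : E m × E n → E m, ContDiff ℝ 1 X →
      ContDiffOn ℝ 1 (hfield N x₀ l X) (Tub N.u h₁) ∧
      ∀ X' ∈ Tub N.u h₁,
        tdiv (N.W.P X') (fderiv ℝ (hfield N x₀ l X) X')
          = (Sx.tr (Sx.D1 X (chart N.u x₀ l X'))
              + ∑ a : Fin m, divS N.u (N.cfield x₀ l a) (npr N.u X') * (X (chart N.u x₀ l X')) a
              - Sx.tr (N.Bg x₀ l (chart N.u x₀ l X') ∘L Sx.D1 X (chart N.u x₀ l X'))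
              + Sx.tr (Sx.D2 X (chart N.u x₀ l X') ∘L N.Pvhg x₀ l (chart N.u x₀ l X')))
            - (Sx.tr (N.E1g x₀ l (chart N.u x₀ l X') ∘L Sx.D1 X (chart N.u x₀ l X'))
              + ⟪N.E2g x₀ l (chart N.u x₀ l X'), X (chart N.u x₀ l X')⟫_ℝ
              + Sx.tr (Sx.D2 X (chart N.u x₀ l X') ∘L N.E3g x₀ l (chart N.u x₀ l X'))))
    (Cg : ℝ) (S : Sx.Sys m n) (hS : S = N.sysOf x₀ l ρ Cg) :
    (∀ X : E m × E n → E m, ContDiff ℝ 1 X → Sx.BaseCpt S.Ω X →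
      ∫ q, (Sx.tr (Sx.D1 X q) + (S.a q.1)⁻¹ * fderiv ℝ S.a q.1 (X q) - Sx.tr (S.B q ∘L Sx.D1 X q)
            + Sx.tr (Sx.D2 X q ∘L S.Pvh q)) ∂S.μ
        = ∫ q, (Sx.tr (S.E1 q ∘L Sx.D1 X q) + ⟪S.E2 q, X q⟫_ℝ + Sx.tr (Sx.D2 X q ∘L S.E3 q)) ∂S.μ) := by
  subst hS
  rintro X hX ⟨K, hK, hKΩ, hX0⟩
  obtain ⟨hY, hid⟩ := PH X hX
  obtain ⟨mB, mPvh, -, -, -, mE1, mE2, mE3, -, -, -⟩ := H.meas Cg _ rfl
  have hsub : Cyl N.u N.Ω N.h ⊆ Tub N.u h₁ := Cyl_subset_Tub _ _ hh₁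
  have mD1 := (meas_D1 hX).measurable
  have mD2 := (meas_D2 hX).measurable
  have mX := hX.continuous.measurable
  have key := H.stat_transfer Cg (Y := hfield N x₀ l X) hK hKΩ (hY.mono hsub)
    (fun X' _ hn => by simp [hfield, hX0 _ hn])
    (D := fun q => (Sx.tr (Sx.D1 X q) + ((N.sysOf x₀ l ρ Cg).a q.1)⁻¹ *
        fderiv ℝ (N.sysOf x₀ l ρ Cg).a q.1 (X q) - Sx.tr ((N.sysOf x₀ l ρ Cg).B q ∘L Sx.D1 X q)
        + Sx.tr (Sx.D2 X q ∘L (N.sysOf x₀ l ρ Cg).Pvh q))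
      - (Sx.tr ((N.sysOf x₀ l ρ Cg).E1 q ∘L Sx.D1 X q) + ⟪(N.sysOf x₀ l ρ Cg).E2 q, X q⟫_ℝ
        + Sx.tr (Sx.D2 X q ∘L (N.sysOf x₀ l ρ Cg).E3 q)))
    (by
      refine Measurable.sub (Measurable.add (Measurable.sub (Measurable.add ?_ ?_) ?_) ?_)
        (Measurable.add (Measurable.add ?_ ?_) ?_)
      · exact Sx.measurable_tr.comp mD1
      · exact ((H.meas_ag.comp measurable_fst).inv).mul
          (cl_meas_apply ((measurable_fderiv ℝ (N.ag x₀ l ρ)).comp measurable_fst) mX)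
      · exact Sx.measurable_tr_comp mB mD1
      · exact Sx.measurable_tr_comp mD2 mPvh
      · exact Sx.measurable_tr_comp mE1 mD1
      · exact mE2.inner mX
      · exact Sx.measurable_tr_comp mD2 mE3)
    (by
      intro X' hX' hg
      rw [hid X' (hsub hX'.1)]
      have ea : ((N.sysOf x₀ l ρ Cg).a (chart N.u x₀ l X').1)⁻¹ *
          fderiv ℝ (N.sysOf x₀ l ρ Cg).a (chart N.u x₀ l X').1 (X (chart N.u x₀ l X'))
          = ∑ a : Fin m, divS N.u (N.cfield x₀ l a) (npr N.u X') * (X (chart N.u x₀ l X')) a := by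
        have := H.a_logderiv hg.1 (X (chart N.u x₀ l X'))
        rw [chart_fst, H.bpt_bco] at this
        exact this
      rw [ea]
      simp only [NCyl.sysOf, if_pos hg])
  exact cl_integral_eq_of_sub key.1 key.2

/-- **V9** given the pointwise identity -/
theorem normal (H : CellCtx N x₀ l ρ h₀) {h₁ : ℝ} (hh₁ : N.h ≤ h₁)
    (PN : ∀ v : E m × E n → E n, ContDiff ℝ 1 v →
      ContDiffOn ℝ 1 (vfield N x₀ l v) (Tub N.u h₁) ∧
      ∀ X' ∈ Tub N.u h₁,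
        tdiv (N.W.P X') (fderiv ℝ (vfield N x₀ l v) X')
          = (Sx.tr (N.Pvvg x₀ l (chart N.u x₀ l X') ∘L Sx.D2 v (chart N.u x₀ l X'))
              + Sx.tr ((N.Pvhg x₀ l (chart N.u x₀ l X')).adjoint ∘L Sx.D1 v (chart N.u x₀ l X')))
            - (Sx.tr (N.E4g x₀ l (chart N.u x₀ l X') ∘L Sx.D2 v (chart N.u x₀ l X'))
              + ⟪N.E5g x₀ l (chart N.u x₀ l X'), v (chart N.u x₀ l X')⟫_ℝ
              + Sx.tr ((N.E6g x₀ l (chart N.u x₀ l X')).adjoint ∘L Sx.D1 v (chart N.u x₀ l X'))))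
    (Cg : ℝ) (S : Sx.Sys m n) (hS : S = N.sysOf x₀ l ρ Cg) :
    (∀ v : E m × E n → E n, ContDiff ℝ 1 v → Sx.BaseCpt S.Ω v →
      ∫ q, (Sx.tr (S.Pvv q ∘L Sx.D2 v q) + Sx.tr ((S.Pvh q).adjoint ∘L Sx.D1 v q)) ∂S.μ
        = ∫ q, (Sx.tr (S.E4 q ∘L Sx.D2 v q) + ⟪S.E5 q, v q⟫_ℝ + Sx.tr ((S.E6 q).adjoint ∘L Sx.D1 v q)) ∂S.μ) := by
  subst hS
  rintro X hX ⟨K, hK, hKΩ, hX0⟩
  obtain ⟨hY, hid⟩ := PN X hX
  obtain ⟨-, mPvh, mPvv, -, -, -, -, -, mE4, mE5, mE6⟩ := H.meas Cg _ rfl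
  have hsub : Cyl N.u N.Ω N.h ⊆ Tub N.u h₁ := Cyl_subset_Tub _ _ hh₁
  have mD1 := (meas_D1 hX).measurable
  have mD2 := (meas_D2 hX).measurable
  have mX := hX.continuous.measurable
  have key := H.stat_transfer Cg (Y := vfield N x₀ l X) hK hKΩ (hY.mono hsub)
    (fun X' _ hn => by simp [vfield, hX0 _ hn])
    (D := fun q => (Sx.tr ((N.sysOf x₀ l ρ Cg).Pvv q ∘L Sx.D2 X q)
        + Sx.tr (((N.sysOf x₀ l ρ Cg).Pvh q).adjoint ∘L Sx.D1 X q))
      - (Sx.tr ((N.sysOf x₀ l ρ Cg).E4 q ∘L Sx.D2 X q) + ⟪(N.sysOf x₀ l ρ Cg).E5 q, X q⟫_ℝ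
        + Sx.tr (((N.sysOf x₀ l ρ Cg).E6 q).adjoint ∘L Sx.D1 X q)))
    (by
      refine Measurable.sub (Measurable.add ?_ ?_) (Measurable.add (Measurable.add ?_ ?_) ?_)
      · exact Sx.measurable_tr_comp mPvv mD2
      · exact Sx.measurable_tr_comp (cl_meas_adjoint mPvh) mD1
      · exact Sx.measurable_tr_comp mE4 mD2
      · exact mE5.inner mX
      · exact Sx.measurable_tr_comp (cl_meas_adjoint mE6) mD1)
    (by
      intro X' hX' hg
      rw [hid X' (hsub hX'.1)]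
      simp only [NCyl.sysOf, if_pos hg])
  exact cl_integral_eq_of_sub key.1 key.2

end CellCtx

end Claimed.Agent.R322.Tube
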