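import Claimed.Agent.R322.Tube.Cell.BaseCov
import Claimed.Agent.R322.Pack018
import Claimed.Agent.R322.Tube.Cell.Stat
import Claimed.Agent.R322.Pack039

/-!
# R322 / Tube / Cell / Count   (helper121)   leaf V6 (`v_count`): the area formula for the projection in the chart
-/

set_option autoImplicit false

open scoped ENNReal NNReal InnerProductSpace
open MeasureTheory ContinuousLinearMap Set Metric

namespace Claimed.Agent.R322.Tube

variable {m n : ℕ}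

/-- tangential Jacobian of the nearest point projection -/
noncomputable def NCyl.tJ (N : NCyl m n) (X : E (m + n)) : ℝ :=
  tanJac (N.W.P X) (fderiv ℝ (npr N.u) X)

open Classical in
/-- test density for the area formula -/
noncomputable def NCyl.Phi (N : NCyl m n) (x₀ : E m) (l ρ : ℝ) (G : E m × E n → ℝ≥0∞)
    (X : E (m + n)) : ℝ≥0∞ :=
  if X ∈ N.cellO x₀ l ρ then
    (if N.tJ X ≠ 0 ∧ ‖zz N.u X‖ ≤ N.cellZ x₀ l ρ then G (chart N.u x₀ l X) else 0)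
  else 0

/-- the fibre sum of the area formula -/
noncomputable def NCyl.fsum (N : NCyl m n) (x₀ : E m) (l ρ : ℝ) (φ : E (m + n) → ℝ≥0∞)
    (y : E m) : ℝ≥0∞ :=
  ∑' x : {x // x ∈ N.W.M ∩ N.cellO x₀ l ρ ∧ npr N.u x = y}, (N.W.θ x : ℝ≥0∞) * φ x

namespace CellCtx

variable {N : NCyl m n} {x₀ : E m} {l ρ h₀ : ℝ}

theorem meas_tJ (N : NCyl m n) : Measurable N.tJ :=
  cl_meas_tanJac N.W.P_meas (measurable_fderiv ℝ _)

theorem continuous_cellO_of {Y : Type*} [TopologicalSpace Y] (H : CellCtx N x₀ l ρ h₀)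
    {F : E (m + n) → Y} (hF : ContinuousOn F (Tub N.u h₀)) :
    Continuous fun X : {X // X ∈ N.cellO x₀ l ρ} => F X :=
  hF.comp_continuous continuous_subtype_val (fun X => H.cellO_sub_tub X.2)

theorem meas_Phi (H : CellCtx N x₀ l ρ h₀) {G : E m × E n → ℝ≥0∞} (hG : Measurable G) :
    Measurable (N.Phi x₀ l ρ G) := by
  classical
  unfold NCyl.Phi
  refine cl_meas_ite (p := fun X => X ∈ N.cellO x₀ l ρ) H.isOpen_cellO.measurableSet 0 ?_
  refine Measurable.ite ?_ ?_ measurable_const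
  · have h1 : MeasurableSet {X : {X // X ∈ N.cellO x₀ l ρ} | N.tJ X ≠ 0} :=
      ((meas_tJ N).comp measurable_subtype_coe) (measurableSet_singleton (0 : ℝ)).compl
    have h2 : MeasurableSet {X : {X // X ∈ N.cellO x₀ l ρ} | ‖zz N.u X‖ ≤ N.cellZ x₀ l ρ} :=
      measurableSet_le (H.continuous_cellO_of H.zz_cd.continuousOn).measurable.norm
        measurable_const
    exact h1.inter h2
  · exact hG.comp (H.continuous_cellO_of H.chart_cd.continuousOn).measurable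

theorem cellO_sub_U (N : NCyl m n) (x₀ : E m) (l ρ : ℝ) : N.cellO x₀ l ρ ⊆ N.W.U :=
  inter_subset_left.trans N.cyl_sub

theorem npr_cd1 (H : CellCtx N x₀ l ρ h₀) : ContDiffOn ℝ 1 (npr N.u) (N.cellO x₀ l ρ) :=
  (H.npr_cd.of_le (by norm_num)).mono H.cellO_sub_tub

/-- the area formula on the cell -/
theorem area (H : CellCtx N x₀ l ρ h₀) {φ : E (m + n) → ℝ≥0∞} (hφ : Measurable φ) :
    ∫⁻ y, N.fsum x₀ l ρ φ y ∂(μH[(m : ℝ)] : Measure (E m))
      = ∫⁻ X in N.cellO x₀ l ρ, φ X * ENNReal.ofReal (N.tJ X) ∂N.W.μ :=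
  N.W.area m _ _ φ H.isOpen_cellO (cellO_sub_U N x₀ l ρ) H.npr_cd1 hφ

theorem aemeas_fsum (H : CellCtx N x₀ l ρ h₀) {φ : E (m + n) → ℝ≥0∞} (hφ : Measurable φ) :
    AEMeasurable (N.fsum x₀ l ρ φ) (μH[(m : ℝ)] : Measure (E m)) :=
  N.W.fib_meas m _ _ φ H.isOpen_cellO (cellO_sub_U N x₀ l ρ) H.npr_cd1 hφ

theorem mem_fibSet_iff (H : CellCtx N x₀ l ρ h₀) {p : E m} (hp : p ∈ ball (0 : E m) ρ)
    (X : E (m + n)) :
    X ∈ N.fibSet x₀ l ρ p ↔ (X ∈ N.W.M ∩ N.cellO x₀ l ρ ∧ npr N.u X = bpt N.u x₀ l p) ∧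
      (N.tJ X ≠ 0 ∧ ‖zz N.u X‖ ≤ N.cellZ x₀ l ρ) := by
  constructor
  · rintro ⟨h1, h2, h3, h4, h5⟩
    refine ⟨⟨⟨h1, h2, ?_⟩, h3⟩, h4, h5⟩
    change npr N.u X ∈ N.cellBase x₀ l ρ
    rw [h3]
    exact H.bpt_mem_cellBase hp
  · rintro ⟨⟨⟨h1, h2, -⟩, h3⟩, h4, h5⟩
    exact ⟨h1, h2, h3, h4, h5⟩

theorem fsum_Phi (H : CellCtx N x₀ l ρ h₀) {p : E m} (hp : p ∈ ball (0 : E m) ρ)
    (G : E m × E n → ℝ≥0∞) :
    N.fsum x₀ l ρ (N.Phi x₀ l ρ G) (bpt N.u x₀ l p)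
      = ∑' x, (N.fibSet x₀ l ρ p).indicator
          (fun x => (N.W.θ x : ℝ≥0∞) * G (chart N.u x₀ l x)) x := by
  classical
  unfold NCyl.fsum
  refine (tsum_subtype {x | x ∈ N.W.M ∩ N.cellO x₀ l ρ ∧ npr N.u x = bpt N.u x₀ l p}
    (fun x => (N.W.θ x : ℝ≥0∞) * N.Phi x₀ l ρ G x)).trans ?_
  refine tsum_congr fun x => ?_
  by_cases hx : x ∈ N.fibSet x₀ l ρ p
  · have hx' := (H.mem_fibSet_iff hp x).1 hx
    have hx1 : x ∈ {x | x ∈ N.W.M ∩ N.cellO x₀ l ρ ∧ npr N.u x = bpt N.u x₀ l p} := hx'.1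
    rw [indicator_of_mem hx, indicator_of_mem hx1]
    unfold NCyl.Phi
    rw [if_pos hx'.1.1.2, if_pos hx'.2]
  · rw [indicator_of_notMem hx]
    by_cases h1 : x ∈ {x | x ∈ N.W.M ∩ N.cellO x₀ l ρ ∧ npr N.u x = bpt N.u x₀ l p}
    · rw [indicator_of_mem h1]
      have h2 : ¬ (N.tJ x ≠ 0 ∧ ‖zz N.u x‖ ≤ N.cellZ x₀ l ρ) := fun h2 =>
        hx ((H.mem_fibSet_iff hp x).2 ⟨h1, h2⟩)
      unfold NCyl.Phi
      rw [if_pos h1.1.2, if_neg h2, mul_zero]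
    · rw [indicator_of_notMem h1]

theorem fsum_off (H : CellCtx N x₀ l ρ h₀) {p : E m} (hp : p ∉ ball (0 : E m) ρ)
    (φ : E (m + n) → ℝ≥0∞) : N.fsum x₀ l ρ φ (bpt N.u x₀ l p) = 0 := by
  unfold NCyl.fsum
  have : IsEmpty {x // x ∈ N.W.M ∩ N.cellO x₀ l ρ ∧ npr N.u x = bpt N.u x₀ l p} := by
    refine ⟨fun x => hp ?_⟩
    have h1 : bco N.u x₀ l (npr N.u x.1) ∈ ball (0 : E m) ρ := x.2.1.2.2
    rwa [x.2.2, H.bco_bpt] at h1
  exact tsum_empty

theorem fibSum_eq (H : CellCtx N x₀ l ρ h₀) (Cg : ℝ) {p : E m} (hp : p ∈ ball (0 : E m) ρ)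
    (hfin : (N.fibSet x₀ l ρ p).Finite) (G : E m × E n → ℝ≥0∞) :
    (N.sysOf x₀ l ρ Cg).fibSum G p
      = ∑' x, (N.fibSet x₀ l ρ p).indicator
          (fun x => (N.W.θ x : ℝ≥0∞) * G (chart N.u x₀ l x)) x := by
  classical
  rw [tsum_eq_sum (s := hfin.toFinset) (fun x hx => indicator_of_notMem
    (fun h => hx (hfin.mem_toFinset.2 h)) _)]
  unfold Sx.Sys.fibSum
  have e1 : (N.sysOf x₀ l ρ Cg).fib p = hfin.toFinset.val.bind
      (fun X => Multiset.replicate (N.W.θ X) (chart N.u x₀ l X).2) := by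
    change N.fibg x₀ l ρ p = _
    unfold NCyl.fibg
    rw [dif_pos ⟨hfin, hp⟩]
  rw [e1, Multiset.map_bind, Multiset.sum_bind]
  change ∑ X ∈ hfin.toFinset, _ = _
  refine Finset.sum_congr rfl fun X hX => ?_
  have hX' : X ∈ N.fibSet x₀ l ρ p := hfin.mem_toFinset.1 hX
  rw [indicator_of_mem hX', Multiset.map_replicate, Multiset.sum_replicate, nsmul_eq_mul]
  congr 2
  have : (chart N.u x₀ l X).1 = p := by
    rw [chart_fst, hX'.2.2.1, H.bco_bpt]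
  rw [← this]

theorem mass_cellO_lt_top (H : CellCtx N x₀ l ρ h₀) : N.W.μ (N.cellO x₀ l ρ) < ∞ := by
  have hK' : IsCompact (bpt N.u x₀ l '' closedBall (0 : E m) ρ) :=
    (isCompact_closedBall _ _).image (cl_continuous_bpt _ _ _)
  have hK'Ω : bpt N.u x₀ l '' closedBall (0 : E m) ρ ⊆ N.Ω := by
    rintro _ ⟨p, hp, rfl⟩
    apply H.room
    rw [H.bco_bpt]
    simpa using hp
  refine lt_of_le_of_lt ?_ (H.fin _ hK' hK'Ω)
  unfold NCyl.μ
  rw [Measure.restrict_apply' H.isOpen_cyl.measurableSet]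
  refine measure_mono ?_
  rintro X ⟨h1, h2⟩
  exact ⟨⟨bco N.u x₀ l (npr N.u X), ball_subset_closedBall h2, H.bpt_bco _⟩, h1⟩

theorem Phi_one_le (N : NCyl m n) (x₀ : E m) (l ρ : ℝ) (X : E (m + n)) :
    N.Phi x₀ l ρ (fun _ => 1) X ≤ 1 := by
  classical
  unfold NCyl.Phi
  split_ifs <;> simp

theorem ae_finite (H : CellCtx N x₀ l ρ h₀) :
    ∀ᵐ p : E m, p ∈ ball (0 : E m) ρ → (N.fibSet x₀ l ρ p).Finite := by
  obtain ⟨C, hC, hCb⟩ := Base.exists_tanJac_bound (m + n) m 3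
  have hm := H.meas_Phi (G := fun _ => 1) measurable_const
  have h1 : ∫⁻ y, N.fsum x₀ l ρ (N.Phi x₀ l ρ (fun _ => 1)) y ∂(μH[(m : ℝ)] : Measure (E m))
      ≠ ∞ := by
    rw [H.area hm]
    refine ne_of_lt (lt_of_le_of_lt (setLIntegral_mono (g := fun _ => ENNReal.ofReal C)
      measurable_const fun X hX => ?_) ?_)
    · calc N.Phi x₀ l ρ (fun _ => 1) X * ENNReal.ofReal (N.tJ X)
          ≤ 1 * ENNReal.ofReal C := by
            refine mul_le_mul' (Phi_one_le N x₀ l ρ X) (ENNReal.ofReal_le_ofReal ?_)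
            exact hCb m _ _ (N.W.P_proj X)
              (H.geo.norm_fderiv_npr_le H.h₀_le (H.cellO_sub_tub hX))
        _ = ENNReal.ofReal C := one_mul _
    · rw [setLIntegral_const]
      exact ENNReal.mul_lt_top ENNReal.ofReal_lt_top H.mass_cellO_lt_top
  have h2 := cl_ae_bpt N.u x₀ H.l_pos (ae_lt_top' (H.aemeas_fsum hm) h1)
  filter_upwards [h2] with p hp hpb
  rw [H.fsum_Phi hpb] at hp
  refine (ENNReal.finite_const_le_of_tsum_ne_top hp.ne one_ne_zero).subset fun X hX => ?_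
  change (1 : ℝ≥0∞) ≤ _
  rw [indicator_of_mem hX, mul_one]
  exact_mod_cast N.W.θ_pos X hX.1

/-- fibre sums of the system and of the area formula agree a.e. on the chart ball -/
theorem ae_fsum_eq (H : CellCtx N x₀ l ρ h₀) (Cg : ℝ) (G : E m × E n → ℝ≥0∞) :
    ∀ᵐ p ∂(volume.restrict (ball (0 : E m) ρ)),
      N.fsum x₀ l ρ (N.Phi x₀ l ρ G) (bpt N.u x₀ l p) = (N.sysOf x₀ l ρ Cg).fibSum G p := by
  filter_upwards [ae_restrict_of_ae H.ae_finite, ae_restrict_mem measurableSet_ball] with p hp hpb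
  rw [H.fsum_Phi hpb, H.fibSum_eq Cg hpb (hp hpb)]

/-- **V6 (1)** -/
theorem count_meas (H : CellCtx N x₀ l ρ h₀) (Cg : ℝ) {g : E m × E n → ℝ≥0∞} (hg : Measurable g) :
    AEMeasurable ((N.sysOf x₀ l ρ Cg).fibSum g) (volume.restrict (ball (0 : E m) ρ)) :=
  ((cl_aemeasurable_bpt N.u x₀ H.l_pos (H.aemeas_fsum (H.meas_Phi hg))).restrict).congr
    (H.ae_fsum_eq Cg g)

theorem Jpi_chart (_H : CellCtx N x₀ l ρ h₀) (Cg : ℝ) {X : E (m + n)}
    (hg : N.good x₀ l ρ (chart N.u x₀ l X)) (hX : unchart N.u x₀ l (chart N.u x₀ l X) = X) :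
    (N.sysOf x₀ l ρ Cg).Jpi (chart N.u x₀ l X)
      = N.tJ X * vdens (fderiv ℝ N.u (bpt N.u x₀ l (chart N.u x₀ l X).1)) := by
  simp only [NCyl.sysOf, if_pos hg]
  unfold NCyl.Jpig NCyl.Pq NCyl.tJ
  rw [hX]

/-- **V6 (2)** -/
theorem count_area (H : CellCtx N x₀ l ρ h₀) (Cg : ℝ) {g : E m × E n → ℝ≥0∞} (hg : Measurable g) :
    ∫⁻ q, g q * ENNReal.ofReal ((N.sysOf x₀ l ρ Cg).Jpi q) ∂(N.sysOf x₀ l ρ Cg).μ
      = ∫⁻ y in ball (0 : E m) ρ, (N.sysOf x₀ l ρ Cg).fibSum g y *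
          ENNReal.ofReal (N.ag x₀ l ρ y) := by
  classical
  obtain ⟨-, -, -, -, mJ, -⟩ := H.meas Cg _ rfl
  have hv0 := vdens_pos (fderiv ℝ N.u x₀)
  have ha := cl_scale_pos m H.l_pos
  set w : E m → ℝ≥0∞ := fun p => ENNReal.ofReal (vdens (fderiv ℝ N.u (bpt N.u x₀ l p))) with hw
  have mw : Measurable w :=
    ((cyla_measurable_vdens N.u).comp (cl_continuous_bpt _ _ _).measurable).ennreal_ofReal
  set G : E m × E n → ℝ≥0∞ := fun q => g q * w q.1 with hG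
  have mG : Measurable G := hg.mul (mw.comp measurable_fst)
  -- A
  rw [H.lintegral_sys Cg (f := fun q => g q * ENNReal.ofReal ((N.sysOf x₀ l ρ Cg).Jpi q))
    (hg.mul mJ.ennreal_ofReal)]
  -- B
  have hB : ∫⁻ X in N.cellO x₀ l ρ, g (chart N.u x₀ l X) *
        ENNReal.ofReal ((N.sysOf x₀ l ρ Cg).Jpi (chart N.u x₀ l X)) ∂N.W.μ
      = ∫⁻ X in N.cellO x₀ l ρ, N.Phi x₀ l ρ G X * ENNReal.ofReal (N.tJ X) ∂N.W.μ := by
    refine lintegral_congr_ae ?_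
    filter_upwards [H.ae_good] with X hX
    obtain ⟨-, h2, h3, h4, h5⟩ := hX
    rw [H.Jpi_chart Cg h4 h5]
    unfold NCyl.Phi
    rw [if_pos h3]
    by_cases h0 : N.tJ X = 0
    · rw [h0]
      simp
    · rw [if_pos ⟨h0, le_cellZ h2 h3.1 h3.2⟩, hG, hw,
        ENNReal.ofReal_mul (show 0 ≤ N.tJ X from Real.sqrt_nonneg _)]
      ring
  rw [hB, ← H.area (H.meas_Phi mG), cl_lintegral_hausdorff N.u x₀ H.l_pos]
  -- E
  have hE : ∫⁻ p, N.fsum x₀ l ρ (N.Phi x₀ l ρ G) (bpt N.u x₀ l p)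
      = ∫⁻ p in ball (0 : E m) ρ, (N.sysOf x₀ l ρ Cg).fibSum G p := by
    rw [← lintegral_congr_ae (H.ae_fsum_eq Cg G), ← lintegral_indicator measurableSet_ball]
    refine lintegral_congr fun p => ?_
    by_cases hp : p ∈ ball (0 : E m) ρ
    · rw [indicator_of_mem hp]
    · rw [indicator_of_notMem hp, H.fsum_off hp]
  rw [hE, ← mul_assoc]
  have hc : (ENNReal.ofReal (haarC m * l ^ m))⁻¹ *
      ENNReal.ofReal (haarC m * l ^ m / vdens (fderiv ℝ N.u x₀))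
      = ENNReal.ofReal (vdens (fderiv ℝ N.u x₀))⁻¹ := by
    rw [← ENNReal.ofReal_inv_of_pos ha, ← ENNReal.ofReal_mul (inv_nonneg.2 ha.le)]
    congr 1
    rw [div_eq_mul_inv, ← mul_assoc, inv_mul_cancel₀ ha.ne', one_mul]
  rw [hc, ← lintegral_const_mul' _ _ ENNReal.ofReal_ne_top]
  refine setLIntegral_congr_fun measurableSet_ball fun p hp => ?_
  have hF : (N.sysOf x₀ l ρ Cg).fibSum G p = (N.sysOf x₀ l ρ Cg).fibSum g p * w p := by
    unfold Sx.Sys.fibSum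
    exact Multiset.sum_map_mul_right (a := w p) (s := (N.sysOf x₀ l ρ Cg).fib p)
      (f := fun ζ => g (p, ζ))
  simp only [hF]
  rw [H.ag_eq_of_mem hp, div_eq_mul_inv, ENNReal.ofReal_mul (vdens_pos _).le]
  ring

/-- **V6 (3)** -/
theorem count_defic (H : CellCtx N x₀ l ρ h₀) (Cg : ℝ) :
    ∃ Z : Set (E m), MeasurableSet Z ∧ volume Z = 0 ∧
      (N.sysOf x₀ l ρ Cg).μ ({q | (N.sysOf x₀ l ρ Cg).Jpi q = 0} ∩
        (Zᶜ ×ˢ (univ : Set (E n)))) = 0 := by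
  classical
  obtain ⟨-, -, -, -, mJ, -⟩ := H.meas Cg _ rfl
  set φ₀ : E (m + n) → ℝ≥0∞ := fun X => if X ∈ N.cellO x₀ l ρ ∧ N.tJ X = 0 then 1 else 0 with hφ
  have mφ : Measurable φ₀ := by
    refine Measurable.ite ?_ measurable_const measurable_const
    exact H.isOpen_cellO.measurableSet.inter ((meas_tJ N) (measurableSet_singleton (0 : ℝ)))
  have h0 : ∫⁻ y, N.fsum x₀ l ρ φ₀ y ∂(μH[(m : ℝ)] : Measure (E m)) = 0 := by
    rw [H.area mφ]
    have : ∀ X, φ₀ X * ENNReal.ofReal (N.tJ X) = 0 := by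
      intro X
      by_cases h : N.tJ X = 0
      · rw [h]; simp
      · rw [hφ]
        simp only
        rw [if_neg (fun hc => h hc.2), zero_mul]
    simp only [this, lintegral_zero]
  have h1 := (lintegral_eq_zero_iff' (H.aemeas_fsum mφ)).1 h0
  have h2 : ∀ᵐ p : E m, N.fsum x₀ l ρ φ₀ (bpt N.u x₀ l p) = 0 := cl_ae_bpt N.u x₀ H.l_pos h1
  refine ⟨toMeasurable volume {p | ¬ N.fsum x₀ l ρ φ₀ (bpt N.u x₀ l p) = 0},
    measurableSet_toMeasurable _ _, ?_, ?_⟩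
  · rw [measure_toMeasurable]
    exact h2
  · rw [measure_eq_zero_iff_ae_notMem]
    refine H.ae_sys_of Cg ?_ ?_
    · refine MeasurableSet.compl ?_
      exact (mJ (measurableSet_singleton (0 : ℝ))).inter
        ((measurableSet_toMeasurable _ _).compl.prod MeasurableSet.univ)
    · filter_upwards [H.ae_good] with X hX
      obtain ⟨h1, -, h3, h4, h5⟩ := hX
      rintro ⟨hJ, hZ, -⟩
      apply hZ
      apply subset_toMeasurable
      change ¬ N.fsum x₀ l ρ φ₀ (bpt N.u x₀ l (chart N.u x₀ l X).1) = 0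
      rw [chart_fst, H.bpt_bco]
      have hJ' : (N.sysOf x₀ l ρ Cg).Jpi (chart N.u x₀ l X) = 0 := hJ
      rw [H.Jpi_chart Cg h4 h5] at hJ'
      have ht : N.tJ X = 0 := by
        rcases mul_eq_zero.1 hJ' with h | h
        · exact h
        · exact absurd h (vdens_pos _).ne'
      intro hs
      unfold NCyl.fsum at hs
      have hle := ENNReal.le_tsum (f := fun x : {x // x ∈ N.W.M ∩ N.cellO x₀ l ρ ∧
        npr N.u x = npr N.u X} => (N.W.θ x : ℝ≥0∞) * φ₀ x) ⟨X, ⟨h1, h3⟩, rfl⟩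
      rw [hs] at hle
      have hφX : φ₀ X = 1 := by
        rw [hφ]
        simp only
        rw [if_pos ⟨h3, ht⟩]
      simp only [hφX, mul_one, nonpos_iff_eq_zero, Nat.cast_eq_zero] at hle
      have := N.W.θ_pos X h1
      omega

/-- **V6** -/
theorem count (H : CellCtx N x₀ l ρ h₀) (Cg : ℝ) (S : Sx.Sys m n) (hS : S = N.sysOf x₀ l ρ Cg) :
    (∀ g : E m × E n → ℝ≥0∞, Measurable g →
      AEMeasurable (S.fibSum g) (volume.restrict S.Ω)) ∧
    (∀ g : E m × E n → ℝ≥0∞, Measurable g →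
      ∫⁻ q, g q * ENNReal.ofReal (S.Jpi q) ∂S.μ
        = ∫⁻ y in S.Ω, S.fibSum g y * ENNReal.ofReal (S.a y)) ∧
    (∃ Z : Set (E m), MeasurableSet Z ∧ volume Z = 0 ∧
      S.μ ({q | S.Jpi q = 0} ∩ (Zᶜ ×ˢ (univ : Set (E n)))) = 0) := by
  subst hS
  exact ⟨fun g hg => H.count_meas Cg hg, fun g hg => H.count_area Cg hg, H.count_defic Cg⟩

end CellCtx

end Claimed.Agent.R322.Tube
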