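import Claimed.Agent.R322.Pack018
import Claimed.Agent.R322.Pack017

/-!
# R322 / Tube / Cell / Err : sizes of the error coefficients `E1 … E6` of a cell (leaf V7)

Formulas in the header of `Tube/Inst.lean`.  At a good chart point `q`: `X = unchart q`, `y = bpt q.1 = npr X`,
`z = zz X`, `|z| = l |ζ| ≤ Z`, `|y - x₀| ≤ l ρ`.

* abstract part: blocks of `P` in the frame `(τ, ν)`: `‖B‖ ≤ e`, `‖νᵀ P τ‖ ≤ √e`, `‖H P ν‖ ≤ √e`;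
  `D = jC` with `‖D - 1‖ ≤ δ ≤ 1/2`: `‖D⁻¹ B D - B‖ ≤ 4 ‖B‖ δ`, `‖1 - D⁻¹‖ ≤ 2 δ`;
* `‖jC - 1‖ ≤ ‖C - 1‖ + ‖A_z‖ ‖C‖`;
* `E2`: `lift_trace` for constant chart fields; `E5`: Weingarten + connection form.
-/

set_option autoImplicit false

open scoped ENNReal NNReal InnerProductSpace
open MeasureTheory ContinuousLinearMap Set Metric

namespace Claimed.Agent.R322.Tube

variable {m n : ℕ}

local notation "adj" => ContinuousLinearMap.adjoint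
local notation "𝟙" => ContinuousLinearMap.id ℝ _

/-! ### norms of compositions -/

theorem v7_norm_comp_le {a b c : ℕ} (A : E b →L[ℝ] E c) (B : E a →L[ℝ] E b) {α β : ℝ}
    (hA : ‖A‖ ≤ α) (hB : ‖B‖ ≤ β) : ‖A ∘L B‖ ≤ α * β :=
  (opNorm_comp_le A B).trans (mul_le_mul hA hB (norm_nonneg _) ((norm_nonneg _).trans hA))

theorem v7_norm_le_one_of_iso {a b : ℕ} {τ : E a →L[ℝ] E b} (h : adj τ ∘L τ = 𝟙) : ‖τ‖ ≤ 1 := by
  refine opNorm_le_bound _ zero_le_one fun v => ?_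
  rw [one_mul, (norm_map_iff_adjoint_comp_self τ).mpr h v]

theorem v7_norm_adj_le_one_of_iso {a b : ℕ} {τ : E a →L[ℝ] E b} (h : adj τ ∘L τ = 𝟙) :
    ‖adj τ‖ ≤ 1 := by
  rw [LinearIsometryEquiv.norm_map]
  exact v7_norm_le_one_of_iso h

/-! ### blocks -/

section blocks

variable {τ : E m →L[ℝ] E (m + n)} {ν : E n →L[ℝ] E (m + n)} {P H : E (m + n) →L[ℝ] E (m + n)}

theorem v7_H_comp_tau (tt : adj τ ∘L τ = 𝟙) (tH : τ ∘L adj τ = H) : H ∘L τ = τ := by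
  rw [← tH, comp_assoc, tt, comp_id]

theorem v7_adj_tau_comp_H (tt : adj τ ∘L τ = 𝟙) (tH : τ ∘L adj τ = H) : adj τ ∘L H = adj τ := by
  rw [← tH, ← comp_assoc, tt, id_comp]

theorem v7_compl_comp_nu (nn : adj ν ∘L ν = 𝟙) (nH : ν ∘L adj ν = 𝟙 - H) : (𝟙 - H) ∘L ν = ν := by
  rw [← nH, comp_assoc, nn, comp_id]

theorem v7_adj_nu_comp_compl (nn : adj ν ∘L ν = 𝟙) (nH : ν ∘L adj ν = 𝟙 - H) :
    adj ν ∘L (𝟙 - H) = adj ν := by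
  rw [← nH, ← comp_assoc, nn, id_comp]

theorem v7_norm_Bop_le (hP : IsProj m P) (hH : IsProj m H) :
    ‖H ∘L (𝟙 - P) ∘L H‖ ≤ tdiv P (𝟙 - H) := by
  have h0 := (block_facts_aux hH hP).1
  have h1 := (block_facts_aux hH hP).2.2.1
  rw [block_B_eq hH hP] at h1 ⊢
  set C := (𝟙 - P) ∘L H with hC
  have h2 : ‖C‖ ^ 2 ≤ tdiv P (𝟙 - H) := by
    have h3 : ‖C‖ ≤ Real.sqrt (tdiv P (𝟙 - H)) := by
      refine opNorm_le_bound _ (Real.sqrt_nonneg _) fun v => ?_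
      have h4 := norm_sq_apply_le_trc C v
      rw [← h1] at h4
      have h5 : tdiv P (𝟙 - H) * ‖v‖ ^ 2 = (Real.sqrt (tdiv P (𝟙 - H)) * ‖v‖) ^ 2 := by
        rw [mul_pow, Real.sq_sqrt h0]
      rw [h5] at h4
      exact (abs_le_of_sq_le_sq' h4 (by positivity)).2
    calc ‖C‖ ^ 2 ≤ Real.sqrt (tdiv P (𝟙 - H)) ^ 2 := by gcongr
      _ = _ := Real.sq_sqrt h0
  calc ‖adj C ∘L C‖ ≤ ‖adj C‖ * ‖C‖ := opNorm_comp_le _ _
    _ = ‖C‖ ^ 2 := by rw [LinearIsometryEquiv.norm_map]; ring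
    _ ≤ _ := h2

theorem v7_norm_B_le (hP : IsProj m P) (hH : IsProj m H) (tt : adj τ ∘L τ = 𝟙)
    (tH : τ ∘L adj τ = H) : ‖adj τ ∘L (𝟙 - P) ∘L τ‖ ≤ tdiv P (𝟙 - H) := by
  have h1 : adj τ ∘L (𝟙 - P) ∘L τ = adj τ ∘L (H ∘L (𝟙 - P) ∘L H) ∘L τ := by
    have e1 : adj τ ∘L (H ∘L (𝟙 - P) ∘L H) ∘L τ
        = (adj τ ∘L H) ∘L (𝟙 - P) ∘L (H ∘L τ) := by
      simp only [comp_assoc]
    rw [e1, v7_adj_tau_comp_H tt tH, v7_H_comp_tau tt tH]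
  rw [h1]
  have h2 := v7_norm_comp_le (adj τ) ((H ∘L (𝟙 - P) ∘L H) ∘L τ) (v7_norm_adj_le_one_of_iso tt)
    (v7_norm_comp_le _ τ (v7_norm_Bop_le hP hH) (v7_norm_le_one_of_iso tt))
  simpa using h2

theorem v7_norm_VPH_le (hP : IsProj m P) (hH : IsProj m H) :
    ‖(𝟙 - H) ∘L P ∘L H‖ ≤ Real.sqrt (tdiv P (𝟙 - H)) :=
  Real.le_sqrt_of_sq_le (block_facts_aux hH hP).2.2.2.2.2

theorem v7_norm_Pvh_le (hP : IsProj m P) (hH : IsProj m H) (tt : adj τ ∘L τ = 𝟙)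
    (tH : τ ∘L adj τ = H) (nn : adj ν ∘L ν = 𝟙) (nH : ν ∘L adj ν = 𝟙 - H) :
    ‖adj ν ∘L P ∘L τ‖ ≤ Real.sqrt (tdiv P (𝟙 - H)) := by
  have h1 : adj ν ∘L P ∘L τ = adj ν ∘L ((𝟙 - H) ∘L P ∘L H) ∘L τ := by
    have e1 : adj ν ∘L ((𝟙 - H) ∘L P ∘L H) ∘L τ
        = (adj ν ∘L (𝟙 - H)) ∘L P ∘L (H ∘L τ) := by
      simp only [comp_assoc]
    rw [e1, v7_adj_nu_comp_compl nn nH, v7_H_comp_tau tt tH]
  rw [h1]
  have h2 := v7_norm_comp_le (adj ν) (((𝟙 - H) ∘L P ∘L H) ∘L τ) (v7_norm_adj_le_one_of_iso nn)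
    (v7_norm_comp_le _ τ (v7_norm_VPH_le hP hH) (v7_norm_le_one_of_iso tt))
  simpa using h2

theorem v7_norm_HPnu_le (hP : IsProj m P) (hH : IsProj m H)
    (nn : adj ν ∘L ν = 𝟙) (nH : ν ∘L adj ν = 𝟙 - H) :
    ‖H ∘L P ∘L ν‖ ≤ Real.sqrt (tdiv P (𝟙 - H)) := by
  have h1 : H ∘L P ∘L ν = (H ∘L P ∘L (𝟙 - H)) ∘L ν := by
    have e1 : (H ∘L P ∘L (𝟙 - H)) ∘L ν = H ∘L P ∘L ((𝟙 - H) ∘L ν) := by
      simp only [comp_assoc]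
    rw [e1, v7_compl_comp_nu nn nH]
  rw [h1]
  have h2 := v7_norm_comp_le (H ∘L P ∘L (𝟙 - H)) ν (norm_HPV_le hH hP) (v7_norm_le_one_of_iso nn)
  rwa [mul_one] at h2

end blocks

/-! ### perturbations of the identity -/

section pert

variable {k : ℕ} {D B : E k →L[ℝ] E k} {δ : ℝ}

theorem v7_inv_facts (hD : ‖D - 𝟙‖ ≤ 1 / 2) :
    D ∘L D.inverse = 𝟙 ∧ D.inverse ∘L D = 𝟙 ∧ ‖D.inverse‖ ≤ 2 := by
  have h := one_sub_inverse (𝟙 - D) (by rw [norm_sub_rev]; exact hD)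
  have e : (𝟙 : E k →L[ℝ] E k) - (𝟙 - D) = D := by abel
  rw [e] at h
  exact h

theorem v7_norm_le_of_pert (hD : ‖D - 𝟙‖ ≤ 1 / 2) : ‖D‖ ≤ 3 / 2 := by
  have e : D = (D - 𝟙) + 𝟙 := by abel
  have h1 : ‖(𝟙 : E k →L[ℝ] E k)‖ ≤ 1 := norm_id_le
  calc ‖D‖ = ‖(D - 𝟙) + 𝟙‖ := by rw [← e]
    _ ≤ ‖D - 𝟙‖ + ‖(𝟙 : E k →L[ℝ] E k)‖ := norm_add_le _ _
    _ ≤ 3 / 2 := by linarith

theorem v7_conj_sub_le (hD : ‖D - 𝟙‖ ≤ 1 / 2) (hδ : ‖D - 𝟙‖ ≤ δ) :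
    ‖D.inverse ∘L B ∘L D - B‖ ≤ 4 * ‖B‖ * δ := by
  obtain ⟨-, h2, h3⟩ := v7_inv_facts hD
  have e : D.inverse ∘L B ∘L D - B = D.inverse ∘L (B ∘L (D - 𝟙) - (D - 𝟙) ∘L B) := by
    have e1 : B ∘L (D - 𝟙) - (D - 𝟙) ∘L B = B ∘L D - D ∘L B := by
      rw [comp_sub, sub_comp, comp_id, id_comp]
      abel
    rw [e1, comp_sub, ← comp_assoc D.inverse D B, h2, id_comp]
  rw [e]
  have h4 : ‖B ∘L (D - 𝟙) - (D - 𝟙) ∘L B‖ ≤ 2 * (‖B‖ * δ) := by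
    calc ‖B ∘L (D - 𝟙) - (D - 𝟙) ∘L B‖ ≤ ‖B ∘L (D - 𝟙)‖ + ‖(D - 𝟙) ∘L B‖ := norm_sub_le _ _
      _ ≤ ‖B‖ * δ + δ * ‖B‖ :=
          add_le_add (v7_norm_comp_le _ _ le_rfl hδ) (v7_norm_comp_le _ _ hδ le_rfl)
      _ = 2 * (‖B‖ * δ) := by ring
  calc ‖D.inverse ∘L (B ∘L (D - 𝟙) - (D - 𝟙) ∘L B)‖ ≤ 2 * (2 * (‖B‖ * δ)) :=
        v7_norm_comp_le _ _ h3 h4
    _ = 4 * ‖B‖ * δ := by ring

theorem v7_one_sub_inv_le (hD : ‖D - 𝟙‖ ≤ 1 / 2) (hδ : ‖D - 𝟙‖ ≤ δ) :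
    ‖𝟙 - D.inverse‖ ≤ 2 * δ := by
  obtain ⟨-, h2, h3⟩ := v7_inv_facts hD
  have e : 𝟙 - D.inverse = D.inverse ∘L (D - 𝟙) := by
    rw [comp_sub, h2, comp_id]
  rw [e]
  exact v7_norm_comp_le _ _ h3 hδ

end pert

/-! ### sums over the standard basis, arithmetic -/

theorem v7_norm_sum_single_le {k : ℕ} (c : Fin k → ℝ) {K : ℝ} (hc : ∀ a, |c a| ≤ K) :
    ‖∑ a : Fin k, c a • (EuclideanSpace.single a (1 : ℝ) : E k)‖ ≤ k * K := by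
  refine (norm_sum_le _ _).trans ?_
  calc ∑ a : Fin k, ‖c a • (EuclideanSpace.single a (1 : ℝ) : E k)‖ ≤ ∑ _a : Fin k, K := by
        refine Finset.sum_le_sum fun a _ => ?_
        rw [norm_smul, EuclideanSpace.norm_single, norm_one, mul_one]
        exact hc a
    _ = k * K := by simp

theorem v7_E2_arith {CL l e lm s d ν c t A D : ℝ} (hCL : 0 ≤ CL) (hl : 0 ≤ l) (he : 0 ≤ e)
    (hs0 : 0 ≤ s) (hs : s ≤ 1) (hd : 0 ≤ d) (hlam : s ^ 2 + d ^ 2 ≤ lm) (hν0 : 0 ≤ ν)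
    (hν : ν ≤ 3 / 2 * l) (hc0 : 0 ≤ c) (hc : c ≤ l) (ht : |t| ≤ e * ν)
    (hA : |A - (D - t)| ≤ CL * (1 * s * e * ν
      + (d * s + 1 ^ 2 * s ^ 2 + 1 * e * s + 1 ^ 2 * Real.sqrt e * s) * c)) :
    |D - A| ≤ (2 + 3 * CL) * l * (e + lm) := by
  have hr0 := Real.sqrt_nonneg e
  have hr : Real.sqrt e ^ 2 = e := Real.sq_sqrt he
  set r := Real.sqrt e with hr_def
  have hlm0 : 0 ≤ lm := le_trans (by positivity) hlam
  have h1 : |D - A| ≤ |t| + |A - (D - t)| := by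
    have e1 : D - A = t - (A - (D - t)) := by ring
    rw [e1]
    exact abs_sub _ _
  have h2 : e * ν ≤ e * (3 / 2 * l) := mul_le_mul_of_nonneg_left hν he
  have h3 : 1 * s * e * ν ≤ e * (3 / 2 * l) := by
    have : s * (e * ν) ≤ 1 * (e * ν) := mul_le_mul_of_nonneg_right hs (mul_nonneg he hν0)
    linarith
  have h4 : d * s + 1 ^ 2 * s ^ 2 + 1 * e * s + 1 ^ 2 * r * s ≤ 2 * lm + 3 / 2 * e := by
    have a1 : d * s ≤ (d ^ 2 + s ^ 2) / 2 := by nlinarith [sq_nonneg (d - s)]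
    have a2 : e * s ≤ e := by nlinarith
    have a3 : r * s ≤ (e + s ^ 2) / 2 := by nlinarith [sq_nonneg (r - s)]
    have a4 : s ^ 2 ≤ lm := by nlinarith [sq_nonneg d]
    nlinarith
  have h5 : 0 ≤ d * s + 1 ^ 2 * s ^ 2 + 1 * e * s + 1 ^ 2 * r * s := by positivity
  have h6 : (d * s + 1 ^ 2 * s ^ 2 + 1 * e * s + 1 ^ 2 * r * s) * c
      ≤ (2 * lm + 3 / 2 * e) * l := mul_le_mul h4 hc hc0 (by positivity)
  have h7 : CL * (1 * s * e * ν + (d * s + 1 ^ 2 * s ^ 2 + 1 * e * s + 1 ^ 2 * r * s) * c)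
      ≤ CL * (e * (3 / 2 * l) + (2 * lm + 3 / 2 * e) * l) :=
    mul_le_mul_of_nonneg_left (add_le_add h3 h6) hCL
  have h8 : 0 ≤ l * e := mul_nonneg hl he
  have h9 : 0 ≤ l * lm := mul_nonneg hl hlm0
  have h10 : 0 ≤ CL * (l * lm) := mul_nonneg hCL h9
  nlinarith

/-! ### frame facts for one reference graph -/

/-- the conclusions of `frame_iso`, `frame_bounds` for `κ₂ = 1` -/
structure V7Fr (u : E m → E n) (x₀ : E m) (Cb : ℝ) : Prop where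
  geo : Geo 1 u
  Cb_nonneg : 0 ≤ Cb
  tt : ∀ y, adj (tauF u x₀ y) ∘L tauF u x₀ y = 𝟙
  nn : ∀ y, adj (nuF u x₀ y) ∘L nuF u x₀ y = 𝟙
  tPh : ∀ y, tauF u x₀ y ∘L adj (tauF u x₀ y) = Ph u y
  nPv : ∀ y, nuF u x₀ y ∘L adj (nuF u x₀ y) = 𝟙 - Ph u y
  cy1 : ∀ y, ‖Cy u x₀ y - 𝟙‖ ≤ Cb * ‖y - x₀‖
  cy2 : ∀ y, ‖Cy u x₀ y - 𝟙‖ ≤ 1 / 4
  om : ∀ y, ‖omgL u x₀ y‖ ≤ Cb * ‖y - x₀‖
  wein : ∀ (y a : E m) (η : E n), Ph u y (fderiv ℝ (nuF u x₀) y a η)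
    = - Shp u y (nuF u x₀ y η) (dF (fderiv ℝ u y) a)
  nu_diff : Differentiable ℝ (nuF u x₀)

namespace V7Fr

variable {u : E m → E n} {x₀ : E m} {Cb : ℝ}

theorem norm_Cy_le (F : V7Fr u x₀ Cb) (y : E m) : ‖Cy u x₀ y‖ ≤ 5 / 4 := by
  have e : Cy u x₀ y = (Cy u x₀ y - 𝟙) + 𝟙 := by abel
  have h1 : ‖(𝟙 : E m →L[ℝ] E m)‖ ≤ 1 := norm_id_le
  have h2 := F.cy2 y
  calc ‖Cy u x₀ y‖ = ‖(Cy u x₀ y - 𝟙) + 𝟙‖ := by rw [← e]
    _ ≤ ‖Cy u x₀ y - 𝟙‖ + ‖(𝟙 : E m →L[ℝ] E m)‖ := norm_add_le _ _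
    _ ≤ 5 / 4 := by linarith

/-- `‖jC - 1‖ ≤ ‖C - 1‖ + (45/16) |w|` -/
theorem norm_jC_sub_le (F : V7Fr u x₀ Cb) (y : E m) (w : E (m + n)) :
    ‖adj (tauF u x₀ y) ∘L (𝟙 - Shp u y w) ∘L tauF u x₀ y ∘L Cy u x₀ y - 𝟙‖
      ≤ ‖Cy u x₀ y - 𝟙‖ + 45 / 16 * ‖w‖ := by
  have e : adj (tauF u x₀ y) ∘L (𝟙 - Shp u y w) ∘L tauF u x₀ y ∘L Cy u x₀ y - 𝟙
      = (Cy u x₀ y - 𝟙) - adj (tauF u x₀ y) ∘L Shp u y w ∘L tauF u x₀ y ∘L Cy u x₀ y := by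
    rw [sub_comp, comp_sub, id_comp, ← comp_assoc (adj (tauF u x₀ y)) (tauF u x₀ y), F.tt, id_comp]
    abel
  rw [e]
  have h1 : ‖adj (tauF u x₀ y) ∘L Shp u y w ∘L tauF u x₀ y ∘L Cy u x₀ y‖
      ≤ 1 * ((9 / 4 * 1 * ‖w‖) * (1 * (5 / 4))) :=
    v7_norm_comp_le _ _ (v7_norm_adj_le_one_of_iso (F.tt y))
      (v7_norm_comp_le _ _ (F.geo.norm_Shp_le y w)
        (v7_norm_comp_le _ _ (v7_norm_le_one_of_iso (F.tt y)) (F.norm_Cy_le y)))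
  calc _ ≤ ‖Cy u x₀ y - 𝟙‖ + ‖adj (tauF u x₀ y) ∘L Shp u y w ∘L tauF u x₀ y ∘L Cy u x₀ y‖ :=
        norm_sub_le _ _
    _ ≤ _ := by linarith

theorem norm_nu_apply_le (F : V7Fr u x₀ Cb) (y : E m) (η : E n) : ‖nuF u x₀ y η‖ ≤ ‖η‖ := by
  have h := (nuF u x₀ y).le_of_opNorm_le (v7_norm_le_one_of_iso (F.nn y)) η
  rwa [one_mul] at h

/-- derivative of `X ↦ ν(π X) η` : Weingarten + connection form -/
theorem hasFDerivAt_nu_npr (F : V7Fr u x₀ Cb) {X : E (m + n)} (hX : X ∈ Tub u (2 / 9))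
    (η : E n) :
    HasFDerivAt (fun X' => nuF u x₀ (npr u X') η)
      (- (Shp u (npr u X) (nuF u x₀ (npr u X) η) ∘L Kz u X ∘L Ph u (npr u X))
        + nuF u x₀ (npr u X) ∘L (omgL u x₀ (npr u X)).flip η ∘L
            dFp (fderiv ℝ u (npr u X)) ∘L Kz u X ∘L Ph u (npr u X)) X := by
  have h1 := (npr_local F.geo le_rfl hX).2
  have h2 := (F.nu_diff (npr u X)).hasFDerivAt
  have h3 := h2.comp X h1
  have h4 := h3.clm_apply (hasFDerivAt_const η X)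
  refine h4.congr_fderiv ?_
  ext1 ξ
  simp only [add_apply, neg_apply, comp_apply, flip_apply, zero_apply, map_zero, zero_add,
    Function.comp_apply]
  set y := npr u X with hy
  set t := Kz u X (Ph u y ξ) with ht
  set a := dFp (fderiv ℝ u y) t with ha
  set v := fderiv ℝ (nuF u x₀) y a η with hv
  have e1 : v = Ph u y v + ((𝟙 : E (m + n) →L[ℝ] E (m + n)) - Ph u y) v := by
    rw [sub_apply]
    simp
  have e2 : Ph u y v = - Shp u y (nuF u x₀ y η) t := by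
    rw [hv, F.wein y a η, ha]
    have e3 : dF (fderiv ℝ u y) (dFp (fderiv ℝ u y) t) = Ph u y t := by
      rw [Ph_eq]
      rfl
    have e4 : Shp u y (nuF u x₀ y η) (Ph u y t) = Shp u y (nuF u x₀ y η) t :=
      congrArg (fun f : E (m + n) →L[ℝ] E (m + n) => f t) (Shp_comp_Ph u y (nuF u x₀ y η))
    rw [e3, e4]
  have e5 : ((𝟙 : E (m + n) →L[ℝ] E (m + n)) - Ph u y) v = nuF u x₀ y (omgL u x₀ y a η) := by
    rw [← F.nPv y]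
    rfl
  rw [e1, e2, e5]

theorem abs_tdiv_nu_le (F : V7Fr u x₀ Cb) {X : E (m + n)} (hX : X ∈ Tub u (2 / 9))
    {P : E (m + n) →L[ℝ] E (m + n)} (hP : IsProj m P) (η : E n) (hη : ‖η‖ ≤ 1) :
    |tdiv P (fderiv ℝ (fun X' => nuF u x₀ (npr u X') η) X)|
      ≤ ‖HS u (npr u X)‖ + ((m + n : ℕ) : ℝ) * (81 / 8 * ‖zz u X‖) + 9 / 2 * tilt u P X
        + ((m + n : ℕ) : ℝ) * (3 * (Cb * ‖npr u X - x₀‖) * Real.sqrt (tilt u P X)) := by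
  rw [(F.hasFDerivAt_nu_npr hX η).fderiv, tdiv_eq_trc, comp_add, comp_neg, trc_add, trc_neg]
  have hAz : ‖Shp u (npr u X) (zz u X)‖ ≤ 1 / 2 := F.geo.norm_Shp_zz_le_half le_rfl hX
  have hAz' : ‖Shp u (npr u X) (zz u X)‖ ≤ 9 / 4 * ‖zz u X‖ := by
    have := F.geo.norm_Shp_le (npr u X) (zz u X)
    linarith
  have hK : ‖Kz u X‖ ≤ 2 := by
    rw [Kz_eq]
    exact norm_Kw_le hAz
  have hKadd : Kz u X = 𝟙 + Shp u (npr u X) (zz u X) ∘L Kz u X := by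
    rw [Kz_eq]
    exact Kw_eq_add hAz
  have htilt : tilt u P X = tdiv P (𝟙 - Ph u (npr u X)) := rfl
  have he0 : 0 ≤ tilt u P X := Tube.tilt_nonneg u hP X
  rw [htilt] at he0 ⊢
  set y := npr u X with hy
  set H := Ph u y with hH
  set K := Kz u X with hK_def
  set Az := Shp u y (zz u X) with hAz_def
  set w := nuF u x₀ y η with hw
  set Aw := Shp u y w with hAw_def
  have hHp : IsProj m H := isProj_Ph u y
  have hw1 : ‖w‖ ≤ 1 := (F.norm_nu_apply_le y η).trans hη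
  have hAw : ‖Aw‖ ≤ 9 / 4 := by
    have := F.geo.norm_Shp_le y w
    nlinarith
  have hHn : ‖H‖ ≤ 1 := norm_Ph_le u y
  -- first term
  have hY1 : H ∘L (Aw ∘L K ∘L H) = Aw ∘L K ∘L H := by
    rw [← comp_assoc, Ph_comp_Shp F.geo.c2]
  have hY2 : (Aw ∘L K ∘L H) ∘L H = Aw ∘L K ∘L H := by
    rw [comp_assoc, comp_assoc, Ph_comp_Ph]
  have hYn : ‖Aw ∘L K ∘L H‖ ≤ 9 / 2 := by
    have := v7_norm_comp_le _ _ hAw (v7_norm_comp_le _ _ hK hHn)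
    linarith
  have hY3 : Aw ∘L K ∘L H = Aw + Aw ∘L Az ∘L K ∘L H := by
    conv_lhs => rw [hKadd]
    rw [add_comp, comp_add, id_comp, Shp_comp_Ph, comp_assoc]
  have hT1 : |trc (P ∘L Aw ∘L K ∘L H)| ≤ ‖HS u y‖ + ((m + n : ℕ) : ℝ) * (81 / 8 * ‖zz u X‖)
      + 9 / 2 * tdiv P (𝟙 - H) := by
    rw [trc_proj_comp hY1 hY2]
    have a1 := abs_trc_B_comp_le hHp hP (Aw ∘L K ∘L H)
    have a2 : tdiv P (𝟙 - H) * ‖Aw ∘L K ∘L H‖ ≤ tdiv P (𝟙 - H) * (9 / 2) :=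
      mul_le_mul_of_nonneg_left hYn he0
    have a3 : trc (Aw ∘L K ∘L H) = inner ℝ (HS u y) w + trc (Aw ∘L Az ∘L K ∘L H) := by
      conv_lhs => rw [hY3]
      rw [trc_add, trc_Shp F.geo.c2]
    have a4 : |inner ℝ (HS u y) w| ≤ ‖HS u y‖ := by
      refine (abs_real_inner_le_norm _ _).trans ?_
      nlinarith [norm_nonneg (HS u y)]
    have a5 : ‖Aw ∘L Az ∘L K ∘L H‖ ≤ 81 / 8 * ‖zz u X‖ := by
      have := v7_norm_comp_le _ _ hAw (v7_norm_comp_le _ _ hAz' (v7_norm_comp_le _ _ hK hHn))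
      linarith
    have a6 := abs_trc_le (Aw ∘L Az ∘L K ∘L H)
    have a7 : ((m + n : ℕ) : ℝ) * ‖Aw ∘L Az ∘L K ∘L H‖
        ≤ ((m + n : ℕ) : ℝ) * (81 / 8 * ‖zz u X‖) :=
      mul_le_mul_of_nonneg_left a5 (Nat.cast_nonneg _)
    rw [a3]
    have a8 := abs_sub (inner ℝ (HS u y) w + trc (Aw ∘L Az ∘L K ∘L H))
      (trc ((H ∘L (𝟙 - P) ∘L H) ∘L Aw ∘L K ∘L H))
    have a9 := abs_add_le (inner ℝ (HS u y) w) (trc (Aw ∘L Az ∘L K ∘L H))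
    linarith
  -- second term
  have hΩ : ‖(omgL u x₀ y).flip η‖ ≤ Cb * ‖y - x₀‖ := by
    refine opNorm_le_bound _ (mul_nonneg F.Cb_nonneg (norm_nonneg _)) fun a => ?_
    rw [flip_apply]
    have b1 := (omgL u x₀ y a).le_opNorm η
    have b2 := (omgL u x₀ y).le_opNorm a
    have b3 := F.om y
    calc ‖omgL u x₀ y a η‖ ≤ ‖omgL u x₀ y a‖ * ‖η‖ := b1
      _ ≤ ‖omgL u x₀ y a‖ * 1 := mul_le_mul_of_nonneg_left hη (norm_nonneg _)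
      _ ≤ ‖omgL u x₀ y‖ * ‖a‖ := by rw [mul_one]; exact b2
      _ ≤ _ := mul_le_mul_of_nonneg_right b3 (norm_nonneg _)
  have hT2 : |trc (P ∘L nuF u x₀ y ∘L (omgL u x₀ y).flip η ∘L dFp (fderiv ℝ u y) ∘L K ∘L H)|
      ≤ ((m + n : ℕ) : ℝ) * (3 * (Cb * ‖y - x₀‖) * Real.sqrt (tdiv P (𝟙 - H))) := by
    have c1 : P ∘L nuF u x₀ y ∘L (omgL u x₀ y).flip η ∘L dFp (fderiv ℝ u y) ∘L K ∘L H
        = (P ∘L nuF u x₀ y ∘L (omgL u x₀ y).flip η ∘L dFp (fderiv ℝ u y) ∘L K) ∘L H := by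
      simp only [comp_assoc]
    have c2 : H ∘L (P ∘L nuF u x₀ y ∘L (omgL u x₀ y).flip η ∘L dFp (fderiv ℝ u y) ∘L K)
        = (H ∘L P ∘L nuF u x₀ y) ∘L ((omgL u x₀ y).flip η ∘L dFp (fderiv ℝ u y) ∘L K) := by
      simp only [comp_assoc]
    rw [c1, trc_comp_comm, c2]
    have c3 := v7_norm_comp_le _ _ (v7_norm_HPnu_le hP hHp (F.nn y) (F.nPv y))
      (v7_norm_comp_le _ _ hΩ (v7_norm_comp_le _ _ (F.geo.norm_dFp_le y) hK))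
    refine (abs_trc_le _).trans (mul_le_mul_of_nonneg_left (c3.trans (le_of_eq ?_))
      (Nat.cast_nonneg _))
    ring
  have hfin := abs_add_le (-trc (P ∘L Aw ∘L K ∘L H))
    (trc (P ∘L nuF u x₀ y ∘L (omgL u x₀ y).flip η ∘L dFp (fderiv ℝ u y) ∘L K ∘L H))
  rw [abs_neg] at hfin
  linarith

end V7Fr

/-! ### a good chart point -/

/-- the facts used at a good chart point `q` -/
structure V7Pt (N : NCyl m n) (x₀ : E m) (l ρ : ℝ) (q : E m × E n) (Cb R : ℝ) : Prop where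
  fr : V7Fr N.u x₀ Cb
  l_pos : 0 < l
  l_le : l ≤ 1
  R_nonneg : 0 ≤ R
  npr_eq : npr N.u (unchart N.u x₀ l q) = bpt N.u x₀ l q.1
  zz_norm : ‖zz N.u (unchart N.u x₀ l q)‖ = l * ‖q.2‖
  zz_le : ‖zz N.u (unchart N.u x₀ l q)‖ ≤ N.cellZ x₀ l ρ
  Z_le : N.cellZ x₀ l ρ ≤ 4 / 45
  y_le : ‖bpt N.u x₀ l q.1 - x₀‖ ≤ l * R
  tub : unchart N.u x₀ l q ∈ Tub N.u (2 / 9)

namespace V7Pt

variable {N : NCyl m n} {x₀ : E m} {l ρ : ℝ} {q : E m × E n} {Cb R : ℝ}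

theorem isProj (_T : V7Pt N x₀ l ρ q Cb R) : IsProj m (N.Pq x₀ l q) :=
  N.W.P_proj (unchart N.u x₀ l q)

theorem tilt_eq (T : V7Pt N x₀ l ρ q Cb R) :
    tilt N.u (N.Pq x₀ l q) (unchart N.u x₀ l q)
      = tdiv (N.Pq x₀ l q) (𝟙 - Ph N.u (bpt N.u x₀ l q.1)) := by
  unfold tilt Pv
  rw [T.npr_eq]

theorem tilt_nonneg (T : V7Pt N x₀ l ρ q Cb R) :
    0 ≤ tilt N.u (N.Pq x₀ l q) (unchart N.u x₀ l q) := Tube.tilt_nonneg _ T.isProj _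

theorem Z_nonneg (T : V7Pt N x₀ l ρ q Cb R) : 0 ≤ N.cellZ x₀ l ρ :=
  (norm_nonneg _).trans T.zz_le

theorem norm_Bg_le (T : V7Pt N x₀ l ρ q Cb R) :
    ‖N.Bg x₀ l q‖ ≤ tilt N.u (N.Pq x₀ l q) (unchart N.u x₀ l q) := by
  rw [T.tilt_eq]
  exact v7_norm_B_le T.isProj (isProj_Ph _ _) (T.fr.tt _) (T.fr.tPh _)

theorem norm_Pvhg_le (T : V7Pt N x₀ l ρ q Cb R) :
    ‖N.Pvhg x₀ l q‖ ≤ Real.sqrt (tilt N.u (N.Pq x₀ l q) (unchart N.u x₀ l q)) := by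
  rw [T.tilt_eq]
  exact v7_norm_Pvh_le T.isProj (isProj_Ph _ _) (T.fr.tt _) (T.fr.tPh _) (T.fr.nn _) (T.fr.nPv _)

theorem jC_eq (T : V7Pt N x₀ l ρ q Cb R) :
    N.jC x₀ l q = adj (tauF N.u x₀ (bpt N.u x₀ l q.1)) ∘L
      (𝟙 - Shp N.u (bpt N.u x₀ l q.1) (zz N.u (unchart N.u x₀ l q))) ∘L
        tauF N.u x₀ (bpt N.u x₀ l q.1) ∘L Cy N.u x₀ (bpt N.u x₀ l q.1) := by
  unfold NCyl.jC NCyl.tq Jz
  rw [T.npr_eq]

theorem norm_jC_sub_half (T : V7Pt N x₀ l ρ q Cb R) : ‖N.jC x₀ l q - 𝟙‖ ≤ 1 / 2 := by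
  rw [T.jC_eq]
  refine (T.fr.norm_jC_sub_le _ _).trans ?_
  have h1 := T.fr.cy2 (bpt N.u x₀ l q.1)
  have h2 := T.zz_le
  have h3 := T.Z_le
  linarith

theorem norm_jC_sub_le (T : V7Pt N x₀ l ρ q Cb R) :
    ‖N.jC x₀ l q - 𝟙‖ ≤ (Cb * R + 3) * (l + N.cellZ x₀ l ρ) := by
  rw [T.jC_eq]
  refine (T.fr.norm_jC_sub_le _ _).trans ?_
  have h1 := T.fr.cy1 (bpt N.u x₀ l q.1)
  have h2 := T.zz_le
  have h3 := T.Z_nonneg
  have h4 : Cb * ‖bpt N.u x₀ l q.1 - x₀‖ ≤ Cb * (l * R) :=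
    mul_le_mul_of_nonneg_left T.y_le T.fr.Cb_nonneg
  have h5 : 0 ≤ Cb * R * N.cellZ x₀ l ρ := mul_nonneg (mul_nonneg T.fr.Cb_nonneg T.R_nonneg) h3
  have h6 := T.l_pos
  nlinarith

theorem norm_omz_le (T : V7Pt N x₀ l ρ q Cb R) :
    l * ‖N.omz x₀ l q‖ ≤ Cb * R * l * ‖zz N.u (unchart N.u x₀ l q)‖ := by
  have h1 : ‖N.omz x₀ l q‖ ≤ ‖q.2‖ * (Cb * (l * R)) := by
    unfold NCyl.omz
    refine (opNorm_comp_le _ _).trans ?_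
    refine mul_le_mul ?_ ((T.fr.om _).trans (mul_le_mul_of_nonneg_left T.y_le T.fr.Cb_nonneg))
      (norm_nonneg _) (norm_nonneg _)
    refine opNorm_le_bound _ (norm_nonneg _) fun f => ?_
    rw [apply_apply, mul_comm]
    exact f.le_opNorm _
  rw [T.zz_norm]
  calc l * ‖N.omz x₀ l q‖ ≤ l * (‖q.2‖ * (Cb * (l * R))) :=
        mul_le_mul_of_nonneg_left h1 T.l_pos.le
    _ = _ := by ring

theorem norm_Shp_half (T : V7Pt N x₀ l ρ q Cb R) :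
    ‖Shp N.u (npr N.u (unchart N.u x₀ l q)) (zz N.u (unchart N.u x₀ l q))‖ ≤ 1 / 2 :=
  T.fr.geo.norm_Shp_le_half _ (by have := T.zz_le; have := T.Z_le; linarith)

theorem norm_Kz_le (T : V7Pt N x₀ l ρ q Cb R) : ‖Kz N.u (unchart N.u x₀ l q)‖ ≤ 2 := by
  rw [Kz_eq]
  exact norm_Kw_le T.norm_Shp_half

theorem norm_dyP_le (T : V7Pt N x₀ l ρ q Cb R) : ‖N.dyP x₀ l q‖ ≤ 3 := by
  have h := v7_norm_comp_le _ _ (T.fr.geo.norm_dFp_le (bpt N.u x₀ l q.1))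
    (v7_norm_comp_le _ _ T.norm_Kz_le
      (v7_norm_comp_le _ _ (norm_Ph_le N.u (bpt N.u x₀ l q.1)) T.isProj.norm_le_one))
  unfold NCyl.dyP
  linarith

theorem norm_dyP_nq_le (T : V7Pt N x₀ l ρ q Cb R) :
    ‖N.dyP x₀ l q ∘L N.nq x₀ l q‖
      ≤ 3 * Real.sqrt (tilt N.u (N.Pq x₀ l q) (unchart N.u x₀ l q)) := by
  have e : N.dyP x₀ l q ∘L N.nq x₀ l q = dFp (fderiv ℝ N.u (bpt N.u x₀ l q.1)) ∘L
      Kz N.u (unchart N.u x₀ l q) ∘L (Ph N.u (bpt N.u x₀ l q.1) ∘L N.Pq x₀ l q ∘L N.nq x₀ l q) := by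
    unfold NCyl.dyP
    simp only [comp_assoc]
  rw [e, T.tilt_eq]
  have h := v7_norm_comp_le _ _ (T.fr.geo.norm_dFp_le (bpt N.u x₀ l q.1))
    (v7_norm_comp_le _ _ T.norm_Kz_le
      (v7_norm_HPnu_le T.isProj (isProj_Ph N.u (bpt N.u x₀ l q.1)) (T.fr.nn _) (T.fr.nPv _)))
  refine h.trans (le_of_eq ?_)
  ring

theorem delta_nonneg (T : V7Pt N x₀ l ρ q Cb R) : 0 ≤ (Cb * R + 3) * (l + N.cellZ x₀ l ρ) :=
  (norm_nonneg _).trans T.norm_jC_sub_le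

theorem l_le_gam (T : V7Pt N x₀ l ρ q Cb R) : l ≤ l + N.cellZ x₀ l ρ := by
  have := T.Z_nonneg
  linarith

theorem norm_E1g_le (T : V7Pt N x₀ l ρ q Cb R) :
    ‖N.E1g x₀ l q‖ ≤ 4 * (Cb * R + 3) * (l + N.cellZ x₀ l ρ)
      * tilt N.u (N.Pq x₀ l q) (unchart N.u x₀ l q) := by
  unfold NCyl.E1g
  have h := v7_conj_sub_le (B := N.Bg x₀ l q) T.norm_jC_sub_half T.norm_jC_sub_le
  have hδ := T.delta_nonneg
  calc _ ≤ 4 * ‖N.Bg x₀ l q‖ * ((Cb * R + 3) * (l + N.cellZ x₀ l ρ)) := h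
    _ ≤ 4 * tilt N.u (N.Pq x₀ l q) (unchart N.u x₀ l q)
          * ((Cb * R + 3) * (l + N.cellZ x₀ l ρ)) := by
        gcongr
        exact T.norm_Bg_le
    _ = _ := by ring

theorem norm_E6g_le (T : V7Pt N x₀ l ρ q Cb R) :
    ‖N.E6g x₀ l q‖ ≤ 2 * (Cb * R + 3) * (l + N.cellZ x₀ l ρ)
      * Real.sqrt (tilt N.u (N.Pq x₀ l q) (unchart N.u x₀ l q)) := by
  unfold NCyl.E6g
  have h1 : ‖adj (𝟙 - (N.jC x₀ l q).inverse)‖ ≤ 2 * ((Cb * R + 3) * (l + N.cellZ x₀ l ρ)) := by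
    rw [LinearIsometryEquiv.norm_map]
    exact v7_one_sub_inv_le T.norm_jC_sub_half T.norm_jC_sub_le
  refine (v7_norm_comp_le _ _ T.norm_Pvhg_le h1).trans (le_of_eq ?_)
  ring

theorem norm_omz_le' (T : V7Pt N x₀ l ρ q Cb R) :
    l * ‖N.omz x₀ l q‖ ≤ Cb * R * (l + N.cellZ x₀ l ρ)
      * Real.sqrt (lam N.u (unchart N.u x₀ l q)) := by
  refine T.norm_omz_le.trans ?_
  have h0 : 0 ≤ Cb * R := mul_nonneg T.fr.Cb_nonneg T.R_nonneg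
  exact mul_le_mul (mul_le_mul_of_nonneg_left T.l_le_gam h0) (v4_norm_zz_le_sqrt_lam _ _)
    (norm_nonneg _) (mul_nonneg h0 (T.l_pos.le.trans T.l_le_gam))

theorem norm_E3g_le (T : V7Pt N x₀ l ρ q Cb R) :
    ‖N.E3g x₀ l q‖ ≤ 5 * (Cb * R + 3) * (l + N.cellZ x₀ l ρ)
      * (Real.sqrt (tilt N.u (N.Pq x₀ l q) (unchart N.u x₀ l q))
        + Real.sqrt (lam N.u (unchart N.u x₀ l q))) := by
  unfold NCyl.E3g
  have h1 : ‖N.Pvhg x₀ l q ∘L (𝟙 - N.jC x₀ l q)‖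
      ≤ Real.sqrt (tilt N.u (N.Pq x₀ l q) (unchart N.u x₀ l q))
        * ((Cb * R + 3) * (l + N.cellZ x₀ l ρ)) :=
    v7_norm_comp_le _ _ T.norm_Pvhg_le (by rw [norm_sub_rev]; exact T.norm_jC_sub_le)
  have h2 : ‖N.omz x₀ l q ∘L N.dyP x₀ l q ∘L N.tq x₀ l q ∘L N.jC x₀ l q‖
      ≤ ‖N.omz x₀ l q‖ * (3 * (1 * (3 / 2))) :=
    v7_norm_comp_le _ _ le_rfl (v7_norm_comp_le _ _ T.norm_dyP_le
      (v7_norm_comp_le _ _ (v7_norm_le_one_of_iso (T.fr.tt _))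
        (v7_norm_le_of_pert T.norm_jC_sub_half)))
  have h3 : ‖l • (N.omz x₀ l q ∘L N.dyP x₀ l q ∘L N.tq x₀ l q ∘L N.jC x₀ l q)‖
      ≤ (l * ‖N.omz x₀ l q‖) * (9 / 2) := by
    rw [norm_smul, Real.norm_of_nonneg T.l_pos.le]
    calc _ ≤ l * (‖N.omz x₀ l q‖ * (3 * (1 * (3 / 2)))) := mul_le_mul_of_nonneg_left h2 T.l_pos.le
      _ = _ := by ring
  have h4 := T.norm_omz_le'
  have hγ : 0 ≤ l + N.cellZ x₀ l ρ := T.l_pos.le.trans T.l_le_gam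
  have hs1 := Real.sqrt_nonneg (tilt N.u (N.Pq x₀ l q) (unchart N.u x₀ l q))
  have hs2 := Real.sqrt_nonneg (lam N.u (unchart N.u x₀ l q))
  have h0 : 0 ≤ Cb * R := mul_nonneg T.fr.Cb_nonneg T.R_nonneg
  have h5 : 0 ≤ (l + N.cellZ x₀ l ρ) * Real.sqrt (lam N.u (unchart N.u x₀ l q)) :=
    mul_nonneg hγ hs2
  have h6 : 0 ≤ (l + N.cellZ x₀ l ρ)
      * Real.sqrt (tilt N.u (N.Pq x₀ l q) (unchart N.u x₀ l q)) := mul_nonneg hγ hs1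
  have h7 : 0 ≤ Cb * R * ((l + N.cellZ x₀ l ρ) * Real.sqrt (lam N.u (unchart N.u x₀ l q))) :=
    mul_nonneg h0 h5
  have h8 : 0 ≤ Cb * R * ((l + N.cellZ x₀ l ρ)
      * Real.sqrt (tilt N.u (N.Pq x₀ l q) (unchart N.u x₀ l q))) := mul_nonneg h0 h6
  refine (norm_add_le _ _).trans ?_
  nlinarith

theorem norm_E4g_le (T : V7Pt N x₀ l ρ q Cb R) :
    ‖N.E4g x₀ l q‖ ≤ 3 * (Cb * R + 3) * (l + N.cellZ x₀ l ρ)
      * Real.sqrt (tilt N.u (N.Pq x₀ l q) (unchart N.u x₀ l q) * lam N.u (unchart N.u x₀ l q)) := by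
  unfold NCyl.E4g
  have h2 : ‖N.omz x₀ l q ∘L N.dyP x₀ l q ∘L N.nq x₀ l q‖
      ≤ ‖N.omz x₀ l q‖ * (3 * Real.sqrt (tilt N.u (N.Pq x₀ l q) (unchart N.u x₀ l q))) :=
    v7_norm_comp_le _ _ le_rfl T.norm_dyP_nq_le
  rw [norm_smul, Real.norm_of_nonneg T.l_pos.le, Real.sqrt_mul T.tilt_nonneg]
  have h4 := T.norm_omz_le'
  have hγ : 0 ≤ l + N.cellZ x₀ l ρ := T.l_pos.le.trans T.l_le_gam
  have hs1 := Real.sqrt_nonneg (tilt N.u (N.Pq x₀ l q) (unchart N.u x₀ l q))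
  have hs2 := Real.sqrt_nonneg (lam N.u (unchart N.u x₀ l q))
  calc _ ≤ l * (‖N.omz x₀ l q‖
          * (3 * Real.sqrt (tilt N.u (N.Pq x₀ l q) (unchart N.u x₀ l q)))) :=
        mul_le_mul_of_nonneg_left h2 T.l_pos.le
    _ = (l * ‖N.omz x₀ l q‖) * (3 * Real.sqrt (tilt N.u (N.Pq x₀ l q) (unchart N.u x₀ l q))) := by
        ring
    _ ≤ (Cb * R * (l + N.cellZ x₀ l ρ) * Real.sqrt (lam N.u (unchart N.u x₀ l q)))
          * (3 * Real.sqrt (tilt N.u (N.Pq x₀ l q) (unchart N.u x₀ l q))) :=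
        mul_le_mul_of_nonneg_right h4 (by positivity)
    _ ≤ _ := by
        have h9 : 0 ≤ (l + N.cellZ x₀ l ρ) * (Real.sqrt (lam N.u (unchart N.u x₀ l q))
            * Real.sqrt (tilt N.u (N.Pq x₀ l q) (unchart N.u x₀ l q))) :=
          mul_nonneg hγ (mul_nonneg hs2 hs1)
        nlinarith

/-! #### `E2` -/

theorem norm_A0inv_le (u : E m → E n) (x₀ v : E m) : ‖(A0 u x₀).inverse v‖ ≤ ‖v‖ := by
  obtain ⟨-, h1, -, h2, -⟩ := A0_facts m n u x₀ _ le_rfl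
  have h3 : A0 u x₀ ((A0 u x₀).inverse v) = v := congrArg (fun f : E m →L[ℝ] E m => f v) h1
  have h4 := h2 ((A0 u x₀).inverse v)
  rwa [h3] at h4

theorem norm_cfield_le (T : V7Pt N x₀ l ρ q Cb R) (a : Fin m) (y : E m) :
    ‖N.cfield x₀ l a y‖ ≤ l := by
  unfold NCyl.cfield
  rw [norm_smul, Real.norm_of_nonneg T.l_pos.le]
  have h := norm_A0inv_le N.u x₀ (EuclideanSpace.single a (1 : ℝ))
  rw [EuclideanSpace.norm_single, norm_one] at h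
  nlinarith [T.l_pos]

theorem norm_nabS_le (T : V7Pt N x₀ l ρ q Cb R) (a : Fin m) (y : E m) :
    ‖nabS N.u (N.cfield x₀ l a) y‖ ≤ 3 / 2 * l := by
  have hd : DifferentiableAt ℝ (N.cfield x₀ l a) y := by
    unfold NCyl.cfield
    exact differentiableAt_const _
  have h0 : fderiv ℝ (N.cfield x₀ l a) y = 0 := by
    unfold NCyl.cfield
    exact (hasFDerivAt_const _ _).fderiv
  unfold nabS
  rw [(hasFDerivAt_tanF T.fr.geo.c2 hd).fderiv, h0, comp_zero, zero_add]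
  have h1 : ‖Wop N.u y (N.cfield x₀ l a y)‖ ≤ l :=
    (T.fr.geo.norm_Wop_le y _).trans (by rw [one_mul]; exact T.norm_cfield_le a y)
  have h := v7_norm_comp_le _ _ (norm_Ph_le N.u y)
    (v7_norm_comp_le _ _ h1 (T.fr.geo.norm_dFp_le y))
  linarith

theorem norm_E2g_le (T : V7Pt N x₀ l ρ q Cb R) :
    ‖N.E2g x₀ l q‖ ≤ m * ((2 + 3 * (200 * (((m + n : ℕ) : ℝ) + 1))) * (l + N.cellZ x₀ l ρ)
      * (tilt N.u (N.Pq x₀ l q) (unchart N.u x₀ l q) + lam N.u (unchart N.u x₀ l q))) := by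
  unfold NCyl.E2g
  refine v7_norm_sum_single_le _ fun a => ?_
  have hcd : ContDiff ℝ 1 (N.cfield x₀ l a) := by
    unfold NCyl.cfield
    exact contDiff_const
  have hL := (lift_trace_of_le T.fr.geo le_rfl hcd T.tub T.isProj).2
  have ht := abs_trc_Bop_comp_le N.u T.isProj (unchart N.u x₀ l q)
    (nabS N.u (N.cfield x₀ l a) (npr N.u (unchart N.u x₀ l q)))
  have hlam : ‖zz N.u (unchart N.u x₀ l q)‖ ^ 2
      + Real.sqrt (DHSsq N.u (npr N.u (unchart N.u x₀ l q))) ^ 2 ≤ lam N.u (unchart N.u x₀ l q) := by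
    rw [Real.sq_sqrt (DHSsq_nonneg _ _)]
    unfold lam
    nlinarith [sq_nonneg ‖HS N.u (npr N.u (unchart N.u x₀ l q))‖]
  have hs : ‖zz N.u (unchart N.u x₀ l q)‖ ≤ 1 := by
    have := T.zz_le
    have := T.Z_le
    linarith
  have key := v7_E2_arith (by positivity) T.l_pos.le T.tilt_nonneg (norm_nonneg _) hs
    (Real.sqrt_nonneg _) hlam (norm_nonneg _) (T.norm_nabS_le a _) (norm_nonneg _)
    (T.norm_cfield_le a _) ht hL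
  rw [T.npr_eq] at key
  refine key.trans ?_
  have h1 : 0 ≤ tilt N.u (N.Pq x₀ l q) (unchart N.u x₀ l q) + lam N.u (unchart N.u x₀ l q) :=
    add_nonneg T.tilt_nonneg (v4_lam_nonneg _ _)
  have h2 : (0 : ℝ) ≤ 2 + 3 * (200 * (((m + n : ℕ) : ℝ) + 1)) := by positivity
  exact mul_le_mul_of_nonneg_right (mul_le_mul_of_nonneg_left T.l_le_gam h2) h1

/-! #### `E5` -/

theorem norm_E5g_le (T : V7Pt N x₀ l ρ q Cb R) :
    ‖N.E5g x₀ l q‖ ≤ n * ((1 + ((m + n : ℕ) : ℝ) * (81 / 8) + 9 / 2 * (1 + m)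
        + ((m + n : ℕ) : ℝ) * (3 * (Cb * R))) * (l + N.cellZ x₀ l ρ)
      * (Real.sqrt (tilt N.u (N.Pq x₀ l q) (unchart N.u x₀ l q))
        + Real.sqrt (lam N.u (unchart N.u x₀ l q)))) := by
  unfold NCyl.E5g
  refine v7_norm_sum_single_le _ fun b => ?_
  have h1 := T.fr.abs_tdiv_nu_le T.tub T.isProj (EuclideanSpace.single b (1 : ℝ))
    (by rw [EuclideanSpace.norm_single, norm_one])
  have h2 := v4_norm_HS_le_sqrt_lam N.u (unchart N.u x₀ l q)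
  have h3 := v4_norm_zz_le_sqrt_lam N.u (unchart N.u x₀ l q)
  have he0 := T.tilt_nonneg
  have he1 : tilt N.u (N.Pq x₀ l q) (unchart N.u x₀ l q) ≤ m := Tube.tilt_le _ T.isProj _
  have hy : ‖npr N.u (unchart N.u x₀ l q) - x₀‖ ≤ R := by
    rw [T.npr_eq]
    refine T.y_le.trans ?_
    have := T.l_le
    have := T.R_nonneg
    nlinarith
  rw [abs_neg, abs_mul, abs_of_pos T.l_pos]
  have hr0 := Real.sqrt_nonneg (tilt N.u (N.Pq x₀ l q) (unchart N.u x₀ l q))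
  have hr : Real.sqrt (tilt N.u (N.Pq x₀ l q) (unchart N.u x₀ l q)) ^ 2
      = tilt N.u (N.Pq x₀ l q) (unchart N.u x₀ l q) := Real.sq_sqrt he0
  have hL0 := Real.sqrt_nonneg (lam N.u (unchart N.u x₀ l q))
  set e := tilt N.u (N.Pq x₀ l q) (unchart N.u x₀ l q) with he
  set r := Real.sqrt e with hr_def
  set L := Real.sqrt (lam N.u (unchart N.u x₀ l q)) with hL
  set Mn : ℝ := ((m + n : ℕ) : ℝ) with hMn
  have hMn0 : 0 ≤ Mn := Nat.cast_nonneg _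
  have hm0 : (0 : ℝ) ≤ m := Nat.cast_nonneg _
  have a1 : e ≤ (1 + m) * r := by
    have : r ≤ 1 + m := by nlinarith [sq_nonneg (r - 1)]
    nlinarith
  have a2 : Mn * (81 / 8 * ‖zz N.u (unchart N.u x₀ l q)‖) ≤ Mn * (81 / 8 * L) := by gcongr
  have a3 : Mn * (3 * (Cb * ‖npr N.u (unchart N.u x₀ l q) - x₀‖) * r)
      ≤ Mn * (3 * (Cb * R) * r) := by
    have := T.fr.Cb_nonneg
    gcongr
  have a4 : |tdiv (N.Pq x₀ l q) (fderiv ℝ (fun X' => nuF N.u x₀ (npr N.u X')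
      (EuclideanSpace.single b (1 : ℝ))) (unchart N.u x₀ l q))|
      ≤ (1 + Mn * (81 / 8) + 9 / 2 * (1 + m) + Mn * (3 * (Cb * R))) * (r + L) := by
    have b1 : 0 ≤ Mn * (3 * (Cb * R)) * L :=
      mul_nonneg (mul_nonneg hMn0 (mul_nonneg (by norm_num)
        (mul_nonneg T.fr.Cb_nonneg T.R_nonneg))) hL0
    have b2 : 0 ≤ Mn * r := mul_nonneg hMn0 hr0
    have b3 : 0 ≤ (m : ℝ) * L := mul_nonneg hm0 hL0
    nlinarith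
  have hK : 0 ≤ (1 + Mn * (81 / 8) + 9 / 2 * (1 + m) + Mn * (3 * (Cb * R))) * (r + L) :=
    (abs_nonneg _).trans a4
  calc _ ≤ l * ((1 + Mn * (81 / 8) + 9 / 2 * (1 + m) + Mn * (3 * (Cb * R))) * (r + L)) :=
        mul_le_mul_of_nonneg_left a4 T.l_pos.le
    _ ≤ (l + N.cellZ x₀ l ρ)
          * ((1 + Mn * (81 / 8) + 9 / 2 * (1 + m) + Mn * (3 * (Cb * R))) * (r + L)) :=
        mul_le_mul_of_nonneg_right T.l_le_gam hK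
    _ = _ := by ring

end V7Pt

/-! ### assembly -/

theorem v7_fin {K Cg γ a b : ℝ} (hK0 : 0 ≤ K) (hK : K ≤ Cg) (hγ : 0 ≤ γ) (ha : 0 ≤ a)
    (hab : a ≤ b) : K * γ * a ≤ Cg * γ * b :=
  mul_le_mul (mul_le_mul_of_nonneg_right hK hγ) hab ha (mul_nonneg (hK0.trans hK) hγ)

/-- **V7** -/
theorem v_err_aux (m n : ℕ) (ρm : ℝ) : ∃ ε₀ h₀ Cg₀ : ℝ, 0 < ε₀ ∧ 0 < h₀ ∧ 1 ≤ Cg₀ ∧
    ∀ (N : NCyl m n) (x₀ : E m) (l ρ Cg : ℝ), CellHyp N x₀ l ρ ε₀ h₀ → ρ ≤ ρm → Cg₀ ≤ Cg →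
    ∀ S : Sx.Sys m n, S = N.sysOf x₀ l ρ Cg →
    (∀ q, ‖S.E1 q‖ ≤ S.Cg * S.γ * (S.e q + S.lam q)) ∧
    (∀ q, ‖S.E2 q‖ ≤ S.Cg * S.γ * (S.e q + S.lam q)) ∧
    (∀ q, ‖S.E3 q‖ ≤ S.Cg * S.γ * (Real.sqrt (S.e q) + Real.sqrt (S.lam q))) ∧
    (∀ q, ‖S.E4 q‖ ≤ S.Cg * S.γ * Real.sqrt (S.e q * S.lam q)) ∧
    (∀ q, ‖S.E5 q‖ ≤ S.Cg * S.γ * (Real.sqrt (S.e q) + Real.sqrt (S.lam q))) ∧
    (∀ q, ‖S.E6 q‖ ≤ S.Cg * S.γ * Real.sqrt (S.e q)) := by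
  obtain ⟨ε₁, h₁, hε₁, hh₁, HC⟩ := exists_cellCtx m n
  obtain ⟨ε₂, Cb, hε₂, hCb, HB⟩ := frame_bounds m n
  have hR : 0 ≤ |ρm| := abs_nonneg _
  have hA0 : 0 ≤ Cb * |ρm| + 3 := by positivity
  have hK2 : (0 : ℝ) ≤ m * (2 + 3 * (200 * (((m + n : ℕ) : ℝ) + 1))) := by positivity
  have hK5 : (0 : ℝ) ≤ n * (1 + ((m + n : ℕ) : ℝ) * (81 / 8) + 9 / 2 * (1 + m)
      + ((m + n : ℕ) : ℝ) * (3 * (Cb * |ρm|))) := by positivity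
  refine ⟨min ε₁ ε₂, min h₁ (4 / 45), 1 + 5 * (Cb * |ρm| + 3)
      + m * (2 + 3 * (200 * (((m + n : ℕ) : ℝ) + 1)))
      + n * (1 + ((m + n : ℕ) : ℝ) * (81 / 8) + 9 / 2 * (1 + m)
        + ((m + n : ℕ) : ℝ) * (3 * (Cb * |ρm|))),
    lt_min hε₁ hε₂, lt_min hh₁ (by norm_num), by linarith, ?_⟩
  intro N x₀ l ρ Cg hc hρ hCg S hS
  subst hS
  have H := HC N x₀ l ρ (hc.mono (min_le_left _ _) (min_le_left _ _))
  have FB := HB 1 N.u (hc.geo.mono (min_le_right _ _)) x₀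
  have F : V7Fr N.u x₀ Cb :=
    { geo := H.geo
      Cb_nonneg := hCb.le
      tt := H.tt
      nn := H.nn
      tPh := H.tPh
      nPv := H.nPv
      cy1 := fun y => by
        have := (FB y).2.2.2.2.1
        rwa [mul_one] at this
      cy2 := fun y => (FB y).2.2.2.2.2.1
      om := fun y => by
        have := (FB y).2.2.2.2.2.2.1
        rwa [one_pow, mul_one] at this
      wein := fun y => (FB y).2.2.2.2.2.2.2.1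
      nu_diff := H.nuF_cd.differentiable (by norm_num) }
  have hZ : N.cellZ x₀ l ρ ≤ 4 / 45 :=
    (CellCtx.cellZ_le N x₀ l ρ).trans (N.h'_lt.le.trans (hc.h_le.trans (min_le_right _ _)))
  have T : ∀ q, N.good x₀ l ρ q → V7Pt N x₀ l ρ q Cb |ρm| := fun q hq =>
    { fr := F
      l_pos := H.l_pos
      l_le := H.l_le_one
      R_nonneg := hR
      npr_eq := H.good_npr hq
      zz_norm := H.good_norm_zz hq
      zz_le := H.good_norm_zz_le hq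
      Z_le := hZ
      y_le := by
        refine (H.norm_bpt_sub_le q.1).trans (mul_le_mul_of_nonneg_left ?_ H.l_pos.le)
        have h1 : ‖q.1‖ < ρ := mem_ball_zero_iff.1 hq.1
        exact h1.le.trans (hρ.trans (le_abs_self _))
      tub := Tub_mono _ H.h₀_le (H.good_tub hq) }
  have hγ : 0 ≤ l + N.cellZ x₀ l ρ := add_nonneg H.l_pos.le (CellCtx.cellZ_nonneg N x₀ l ρ)
  have key : ∀ q : E m × E n,
      (N.good x₀ l ρ q ∧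
        (N.sysOf x₀ l ρ Cg).e q = tilt N.u (N.Pq x₀ l q) (unchart N.u x₀ l q) ∧
        (N.sysOf x₀ l ρ Cg).lam q = lam N.u (unchart N.u x₀ l q) ∧
        (N.sysOf x₀ l ρ Cg).E1 q = N.E1g x₀ l q ∧ (N.sysOf x₀ l ρ Cg).E2 q = N.E2g x₀ l q ∧
        (N.sysOf x₀ l ρ Cg).E3 q = N.E3g x₀ l q ∧ (N.sysOf x₀ l ρ Cg).E4 q = N.E4g x₀ l q ∧
        (N.sysOf x₀ l ρ Cg).E5 q = N.E5g x₀ l q ∧ (N.sysOf x₀ l ρ Cg).E6 q = N.E6g x₀ l q) ∨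
      ((N.sysOf x₀ l ρ Cg).e q = 0 ∧ (N.sysOf x₀ l ρ Cg).lam q = 0 ∧
        (N.sysOf x₀ l ρ Cg).E1 q = 0 ∧ (N.sysOf x₀ l ρ Cg).E2 q = 0 ∧
        (N.sysOf x₀ l ρ Cg).E3 q = 0 ∧ (N.sysOf x₀ l ρ Cg).E4 q = 0 ∧
        (N.sysOf x₀ l ρ Cg).E5 q = 0 ∧ (N.sysOf x₀ l ρ Cg).E6 q = 0) := by
    intro q
    by_cases hq : N.good x₀ l ρ q
    · left
      refine ⟨hq, ?_, ?_, ?_, ?_, ?_, ?_, ?_, ?_⟩
      · rw [← H.tr_Bg hq]
        simp only [Sx.Sys.e, NCyl.sysOf, if_pos hq]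
      all_goals simp only [NCyl.sysOf, if_pos hq]
    · right
      refine ⟨?_, ?_, ?_, ?_, ?_, ?_, ?_, ?_⟩
      · simp only [Sx.Sys.e, NCyl.sysOf, if_neg hq, Sx.tr_zero]
      all_goals simp only [NCyl.sysOf, if_neg hq]
  have hCg' : (N.sysOf x₀ l ρ Cg).Cg = Cg := rfl
  have hγ' : (N.sysOf x₀ l ρ Cg).γ = l + N.cellZ x₀ l ρ := rfl
  refine ⟨fun q => ?_, fun q => ?_, fun q => ?_, fun q => ?_, fun q => ?_, fun q => ?_⟩ <;>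
  rcases key q with ⟨hq, e0, e00, e1, e2, e3, e4, e5, e6⟩ | ⟨e0, e00, e1, e2, e3, e4, e5, e6⟩ <;>
  simp only [e0, e00, e1, e2, e3, e4, e5, e6, hCg', hγ']
  · refine ((T q hq).norm_E1g_le).trans ?_
    exact v7_fin (by positivity) (by linarith) hγ (T q hq).tilt_nonneg
      (le_add_of_nonneg_right (v4_lam_nonneg _ _))
  · simp
  · refine ((T q hq).norm_E2g_le).trans (le_of_eq_of_le ?_
      (v7_fin hK2 (by linarith) hγ (add_nonneg (T q hq).tilt_nonneg (v4_lam_nonneg _ _)) le_rfl))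
    ring
  · simp
  · refine ((T q hq).norm_E3g_le).trans ?_
    exact v7_fin (by positivity) (by linarith) hγ
      (add_nonneg (Real.sqrt_nonneg _) (Real.sqrt_nonneg _)) le_rfl
  · simp
  · refine ((T q hq).norm_E4g_le).trans ?_
    exact v7_fin (by positivity) (by linarith) hγ (Real.sqrt_nonneg _) le_rfl
  · simp
  · refine ((T q hq).norm_E5g_le).trans (le_of_eq_of_le ?_
      (v7_fin hK5 (by linarith) hγ (add_nonneg (Real.sqrt_nonneg _) (Real.sqrt_nonneg _)) le_rfl))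
    ring
  · simp
  · refine ((T q hq).norm_E6g_le).trans ?_
    exact v7_fin (by positivity) (by linarith) hγ (Real.sqrt_nonneg _) le_rfl
  · simp

end Claimed.Agent.R322.Tube
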